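import Crest.Agent.R163.Mom3
import Crest.Agent.R163.BilOk

/-! R163: a two-point inequality for three states (generated). -/

set_option autoImplicit false
set_option linter.unusedVariables false
set_option linter.unusedSimpArgs false
set_option Elab.async false

namespace Crest.Agent.R163.C3II
open Bil

def sp1 : Spec := ⟨1, 6, [(0, 0, 0), (0, 1, 0), (0, 2, 0), (0, 3, 0), (0, 4, 0), (0, 5, 0), (0, 6, 0)],
  3, 4, [(0, 0, 0), (0, 1, 0), (1, 0, 0), (2, 0, 0)],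
  [[11010, -8106, -42602, 97488],
   [99550, -90595, -413706, 475540],
   [205447, 383172, -228630, -804572],
   [-827942, 435766, 1822034, -1823928],
   [-821578, -1076094, 1740348, 1248728],
   [1200000, -1622459, -1131008, 3158180],
   [1079729, -576260, -1191796, 1268148]],
  1, 25⟩

theorem a00ll : Ok sp1 false false ⟨⟨2, 0, 0, 1⟩, ⟨0, 0, 0, 0⟩, ⟨0, 0, 0, 0⟩, ⟨6, 0, 0, 4⟩⟩ r3p :=
  Ok.chk 75 (.sr 1 3 0 0 (.sr 1 3 1 0 (.sr 0 1 0 2 .leaf (.sr 1 3 3 0 (.sr 0 1 0 5 .leaf (.sr 1 3 7 0 (.sr 0 1 0 11 .leaf (.sr 1 3 15 0 (.sr 0 1 0 23 .leaf (.sr 1 3 31 0 (.sr 0 1 0 47 .leaf .leaf) .leaf)) .leaf)) .leaf)) .leaf)) .leaf) .leaf) (by decide +kernel)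

theorem a00lrlll : Ok sp1 false false ⟨⟨6, 0, 0, 4⟩, ⟨0, 0, 0, 0⟩, ⟨0, 0, 0, 0⟩, ⟨2, 0, 0, 2⟩⟩ ⟨⟨1, 1, 0, 3⟩, ⟨4, 1, 3, 6⟩, ⟨0, 0, 0, 0⟩, ⟨3, 0, 3, 4⟩⟩ :=
  Ok.chk 58 .leaf (by decide +kernel)

theorem a00lrllrll : Ok sp1 false false ⟨⟨6, 0, 0, 4⟩, ⟨0, 0, 0, 0⟩, ⟨0, 0, 0, 0⟩, ⟨22, 0, 0, 16⟩⟩ ⟨⟨4, 1, 3, 6⟩, ⟨1, 0, 1, 1⟩, ⟨0, 0, 0, 0⟩, ⟨3, 0, 3, 4⟩⟩ :=
  Ok.chk 100 (.sr 1 3 3 0 (.sr 0 1 0 5 .leaf (.sl 0 3 3 0 (.sr 1 3 7 0 (.sr 0 1 0 11 .leaf (.sr 1 3 15 0 (.sr 0 1 0 23 .leaf (.sr 1 3 31 0 (.sr 0 1 0 47 .leaf .leaf) .leaf)) .leaf)) .leaf) (.sr 1 3 7 0 (.sr 0 1 0 11 .leaf (.sl 0 3 0 1 (.sr 1 3 15 0 (.sr 0 1 0 23 .leaf (.sr 1 3 31 0 (.sr 0 1 0 47 .leaf .leaf) .leaf)) .leaf) (.sr 1 3 15 0 (.sr 0 1 0 23 .leaf (.sr 1 3 31 0 (.sr 0 1 0 47 .leaf .leaf) .leaf)) .leaf))) .leaf))) .leaf) (by decide +kernel)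

theorem a00lrllrlr : Ok sp1 false false ⟨⟨22, 0, 0, 16⟩, ⟨0, 0, 0, 0⟩, ⟨0, 0, 0, 0⟩, ⟨10, 0, 0, 8⟩⟩ ⟨⟨4, 1, 3, 6⟩, ⟨1, 0, 1, 1⟩, ⟨0, 0, 0, 0⟩, ⟨3, 0, 3, 4⟩⟩ :=
  Ok.chk 87 (.sr 1 3 3 0 (.sr 0 1 0 5 .leaf (.sr 1 3 7 0 (.sr 0 1 0 11 .leaf (.sr 1 3 15 0 (.sr 0 1 0 23 .leaf (.sr 1 3 31 0 (.sr 0 1 0 47 .leaf .leaf) .leaf)) .leaf)) .leaf)) .leaf) (by decide +kernel)

theorem a00lrllrl : Ok sp1 false false ⟨⟨6, 0, 0, 4⟩, ⟨0, 0, 0, 0⟩, ⟨0, 0, 0, 0⟩, ⟨10, 0, 0, 8⟩⟩ ⟨⟨4, 1, 3, 6⟩, ⟨1, 0, 1, 1⟩, ⟨0, 0, 0, 0⟩, ⟨3, 0, 3, 4⟩⟩ :=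
  Ok.sl 0 3 1 0 a00lrllrll a00lrllrlr (by decide +kernel)

theorem a00lrllrr : Ok sp1 false false ⟨⟨10, 0, 0, 8⟩, ⟨0, 0, 0, 0⟩, ⟨0, 0, 0, 0⟩, ⟨2, 0, 0, 2⟩⟩ ⟨⟨4, 1, 3, 6⟩, ⟨1, 0, 1, 1⟩, ⟨0, 0, 0, 0⟩, ⟨3, 0, 3, 4⟩⟩ :=
  Ok.chk 75 (.sr 1 3 3 0 (.sr 0 1 0 5 .leaf (.sr 1 3 7 0 (.sr 0 1 0 11 .leaf (.sr 1 3 15 0 (.sr 0 1 0 23 .leaf .leaf) .leaf)) .leaf)) .leaf) (by decide +kernel)

theorem a00lrllr : Ok sp1 false false ⟨⟨6, 0, 0, 4⟩, ⟨0, 0, 0, 0⟩, ⟨0, 0, 0, 0⟩, ⟨2, 0, 0, 2⟩⟩ ⟨⟨4, 1, 3, 6⟩, ⟨1, 0, 1, 1⟩, ⟨0, 0, 0, 0⟩, ⟨3, 0, 3, 4⟩⟩ :=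
  Ok.sl 0 3 0 1 a00lrllrl a00lrllrr (by decide +kernel)

theorem a00lrll : Ok sp1 false false ⟨⟨6, 0, 0, 4⟩, ⟨0, 0, 0, 0⟩, ⟨0, 0, 0, 0⟩, ⟨2, 0, 0, 2⟩⟩ ⟨⟨1, 1, 0, 3⟩, ⟨1, 0, 1, 1⟩, ⟨0, 0, 0, 0⟩, ⟨3, 0, 3, 4⟩⟩ :=
  Ok.sr 0 1 0 2 a00lrlll a00lrllr (by decide +kernel)

theorem a00lrlr : Ok sp1 false false ⟨⟨6, 0, 0, 4⟩, ⟨0, 0, 0, 0⟩, ⟨0, 0, 0, 0⟩, ⟨2, 0, 0, 2⟩⟩ ⟨⟨1, 1, 0, 3⟩, ⟨3, 0, 3, 4⟩, ⟨0, 0, 0, 0⟩, ⟨1, 0, 1, 2⟩⟩ :=
  Ok.chk 56 .leaf (by decide +kernel)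

theorem a00lrl : Ok sp1 false false ⟨⟨6, 0, 0, 4⟩, ⟨0, 0, 0, 0⟩, ⟨0, 0, 0, 0⟩, ⟨2, 0, 0, 2⟩⟩ ⟨⟨1, 1, 0, 3⟩, ⟨1, 0, 1, 1⟩, ⟨0, 0, 0, 0⟩, ⟨1, 0, 1, 2⟩⟩ :=
  Ok.sr 1 3 1 0 a00lrll a00lrlr (by decide +kernel)

theorem a00lrr : Ok sp1 false false ⟨⟨6, 0, 0, 4⟩, ⟨0, 0, 0, 0⟩, ⟨0, 0, 0, 0⟩, ⟨2, 0, 0, 2⟩⟩ ⟨⟨1, 1, 0, 3⟩, ⟨1, 0, 1, 2⟩, ⟨0, 0, 0, 0⟩, ⟨0, 0, 0, 1⟩⟩ :=
  Ok.chk 53 .leaf (by decide +kernel)

theorem a00lr : Ok sp1 false false ⟨⟨6, 0, 0, 4⟩, ⟨0, 0, 0, 0⟩, ⟨0, 0, 0, 0⟩, ⟨2, 0, 0, 2⟩⟩ r3p :=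
  Ok.sr 1 3 0 0 a00lrl a00lrr (by decide +kernel)

theorem a00l : Ok sp1 false false ⟨⟨2, 0, 0, 1⟩, ⟨0, 0, 0, 0⟩, ⟨0, 0, 0, 0⟩, ⟨2, 0, 0, 2⟩⟩ r3p :=
  Ok.sl 0 3 1 0 a00ll a00lr (by decide +kernel)

theorem a00r : Ok sp1 false false ⟨⟨2, 0, 0, 2⟩, ⟨0, 0, 0, 0⟩, ⟨0, 0, 0, 0⟩, ⟨0, 0, 0, 1⟩⟩ r3p :=
  Ok.chk 61 (.sl 0 3 0 1 (.sr 1 3 0 0 (.sr 1 3 1 0 (.sr 0 1 0 2 .leaf (.sr 1 3 3 0 (.sr 0 1 0 5 .leaf .leaf) .leaf)) .leaf) (.sl 0 3 1 0 .leaf (.sl 0 3 0 1 .leaf .leaf))) (.sr 1 3 0 0 (.sl 0 3 0 3 (.sr 1 3 1 0 (.sr 0 1 0 2 .leaf .leaf) .leaf) (.sr 1 3 1 0 .leaf .leaf)) (.sl 0 3 0 3 .leaf .leaf))) (by decide +kernel)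

theorem a00 : Ok sp1 false false (rI 0 2 1) r3p :=
  Ok.sl 0 3 0 0 a00l a00r (by decide +kernel)

theorem a01 : Ok sp1 false true (rI 0 2 1) r3n :=
  Ok.chk 61 (.sl 0 3 0 0 .leaf (.sl 0 3 0 1 (.sl 0 3 1 0 .leaf (.sl 0 3 0 1 .leaf .leaf)) (.sl 0 3 0 3 .leaf .leaf))) (by decide +kernel)

theorem a10 : Ok sp1 true false (rI 0 1 1) r3p :=
  Ok.chk 46 (.sr 1 3 0 0 .leaf (.sl 0 3 0 0 .leaf (.sl 0 3 0 1 .leaf .leaf))) (by decide +kernel)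

theorem a11 : Ok sp1 true true (rI 0 1 1) r3n :=
  Ok.chk 46 (.sl 0 3 0 0 .leaf (.sl 0 3 0 1 .leaf .leaf)) (by decide +kernel)

def sp2 : Spec := ⟨3, 8, [(0, 1, 0), (0, 2, 0), (1, 0, 0), (1, 1, 0), (1, 2, 0), (2, 0, 0), (2, 1, 0), (3, 0, 0), (4, 0, 0)],
  3, 8, [(0, 1, 0), (0, 2, 0), (1, 0, 0), (1, 1, 0), (1, 2, 0), (2, 0, 0), (2, 1, 0), (3, 0, 0), (4, 0, 0)],
  [[6613000, -8343075, -37706626, -19653900, 0, 131059300, 47860300, -129748800, 0],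
   [-8343075, -42478850, 0, 77072125, 73014400, -64874400, -122883975, 259712750, -209436200],
   [-37706626, 0, 29562224, 90810600, 0, -4996400, 0, -129748800, 0],
   [-19653900, 77072125, 90810600, 48046200, 8625100, -520279350, -178458275, 756832200, -380444400],
   [0, 73014400, 0, 8625100, -186150900, 0, 158581500, -399658400, 516366800],
   [131059300, -64874400, -4996400, -520279350, 0, 23559900, 542427300, 330957300, -380444400],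
   [47860300, -122883975, 0, -178458275, 158581500, 542427300, -279096350, -781010250, 933814800],
   [-129748800, 259712750, -129748800, 756832200, -399658400, 330957300, -781010250, -1672281200, 2324930000],
   [0, -209436200, 0, -380444400, 516366800, -380444400, 933814800, 2324930000, -4288563500]],
  1, 81⟩

theorem b00 : Ok sp2 false false r3p r3p :=
  Ok.chk 86 (.sl 1 3 0 0 (.sr 1 3 0 0 (.sl 0 1 0 2 (.sr 0 1 0 2 .leaf .leaf) (.sl 1 3 1 0 .leaf .leaf)) .leaf) (.sr 1 3 0 0 .leaf .leaf)) (by decide +kernel)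

theorem b01 : Ok sp2 false true r3p r3n :=
  Ok.chk 79 (.sl 1 3 0 0 (.sl 1 3 1 0 (.sl 0 1 0 2 .leaf .leaf) .leaf) .leaf) (by decide +kernel)

theorem b10 : Ok sp2 true false r3n r3p :=
  Ok.chk 79 (.sr 1 3 0 0 (.sr 1 3 1 0 (.sr 0 1 0 2 .leaf .leaf) .leaf) .leaf) (by decide +kernel)

theorem b11 : Ok sp2 true true r3n r3n :=
  Ok.chk 66 .leaf (by decide +kernel)

noncomputable def Phi (s N T : ℝ) : ℝ :=
  ((-11 / 50) + (11 / 50) * s + (-43301 / 100000) * s ^ 2 + (-142251 / 100000) * s ^ 3 + (13343 / 6250) * s ^ 4 + (156573 / 25000) * s ^ 5 + (-297949 / 50000) * s ^ 6) * N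
    + ((-1) + (2) * s + (-154053 / 50000) * s ^ 2 + (333723 / 100000) * s ^ 3 + (106321 / 100000) * s ^ 4 + (-28813 / 5000) * s ^ 5) * T
    + ((1 / 2) + (-3 / 2) * s + (81093 / 25000) * s ^ 2 + (-478603 / 100000) * s ^ 3 + (317037 / 100000) * s ^ 4) * N ^ 2
    + ((1101 / 10000) * s ^ 2 + (1991 / 2000) * s ^ 3 + (205447 / 100000) * s ^ 4 + (-413971 / 50000) * s ^ 5 + (-410789 / 50000) * s ^ 6 + (12) * s ^ 7 + (1079729 / 100000) * s ^ 8)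

theorem st1 (s : ℝ) (W : Fin 3 → ℝ) (h1 : -1 ≤ s) (h2 : s ≤ 2) (hW : Simp W) :
    (1 + s) * -psi3 W ≤ Phi s ((1 + s) ^ 2 * fH W) ((1 + s) ^ 3 * fT W) := by
  have h := Ok.four a00 a01 a10 a11 (sideS 2 two_pos h1 (by exact_mod_cast h2)) (side3 hW)
  simp only [sp1, bil, mon, List.map_cons, List.map_nil, List.zipWith_cons_cons, List.zipWith_nil_right, List.zipWith_nil_left,
    List.sum_cons, List.sum_nil] at h
  push_cast at h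
  simp only [Phi, psi3, g3, rho3]
  linear_combination (1 / 100000) * mul_nonneg (sq_nonneg s) h

noncomputable def RR (H T K U : ℝ) : ℝ :=
  (-1) * U
      + (-11 / 50) * K
      + (1 / 2) * K ^ 2
      + (-1) * T
      + (-71763 / 50000) * T * U
      + (333723 / 200000) * T * U ^ 2
      + (261 / 50) * T * K
      + (196539 / 100000) * T * K * U
      + (-70273 / 10000) * T * K ^ 2
      + (-478603 / 200000) * T * K ^ 2 * U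
      + (81093 / 25000) * T * K ^ 3
      + (333723 / 200000) * T ^ 2 * U
      + (849577 / 100000) * T ^ 2 * U ^ 2
      + (-616577 / 80000) * T ^ 2 * K * U
      + (-22817 / 3125) * T ^ 2 * K * U ^ 2
      + (81093 / 25000) * T ^ 2 * K ^ 2
      + (4915359 / 800000) * T ^ 2 * K ^ 2 * U
      + (-1038851 / 160000) * T ^ 2 * K ^ 3
      + (1047181 / 400000) * T ^ 2 * K ^ 4
      + (-11 / 50) * H
      + (261 / 50) * H * U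
      + (-16699 / 20000) * H * K
      + (-454053 / 100000) * H * K * U
      + (-143301 / 200000) * H * K ^ 2
      + (81093 / 50000) * H * K ^ 3
      + (196539 / 100000) * H * T * U
      + (-616577 / 80000) * H * T * U ^ 2
      + (-454053 / 100000) * H * T * K
      + (-240231 / 100000) * H * T * K * U
      + (-86251 / 200000) * H * T * K * U ^ 2
      + (10405587 / 800000) * H * T * K ^ 2
      + (7138331 / 1600000) * H * T * K ^ 2 * U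
      + (-3784161 / 400000) * H * T * K ^ 3
      + (951111 / 400000) * H * T * K ^ 4
      + (-22817 / 3125) * H * T ^ 2 * U ^ 2
      + (-86251 / 200000) * H * T ^ 2 * K * U
      + (1861509 / 200000) * H * T ^ 2 * K * U ^ 2
      + (-317163 / 80000) * H * T ^ 2 * K ^ 2 * U
      + (499573 / 100000) * H * T ^ 2 * K ^ 3
      + (-1290917 / 400000) * H * T ^ 2 * K ^ 4
      + (1 / 2) * H ^ 2
      + (-70273 / 10000) * H ^ 2 * U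
      + (81093 / 25000) * H ^ 2 * U ^ 2
      + (-143301 / 200000) * H ^ 2 * K
      + (10405587 / 800000) * H ^ 2 * K * U
      + (166401 / 800000) * H ^ 2 * K ^ 2
      + (-5424273 / 800000) * H ^ 2 * K ^ 2 * U
      + (-3309573 / 1600000) * H ^ 2 * K ^ 3
      + (951111 / 800000) * H ^ 2 * K ^ 4
      + (-478603 / 200000) * H ^ 2 * T * U
      + (4915359 / 800000) * H ^ 2 * T * U ^ 2
      + (7138331 / 1600000) * H ^ 2 * T * K * U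
      + (-317163 / 80000) * H ^ 2 * T * K * U ^ 2
      + (-5424273 / 800000) * H ^ 2 * T * K ^ 2
      + (5581927 / 1600000) * H ^ 2 * T * K ^ 2 * U
      + (3124041 / 640000) * H ^ 2 * T * K ^ 3
      + (-2334537 / 800000) * H ^ 2 * T * K ^ 4
      + (81093 / 25000) * H ^ 3 * U
      + (-1038851 / 160000) * H ^ 3 * U ^ 2
      + (81093 / 50000) * H ^ 3 * K
      + (-3784161 / 400000) * H ^ 3 * K * U
      + (499573 / 100000) * H ^ 3 * K * U ^ 2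
      + (-3309573 / 1600000) * H ^ 3 * K ^ 2
      + (3124041 / 640000) * H ^ 3 * K ^ 2 * U
      + (4180703 / 800000) * H ^ 3 * K ^ 3
      + (-232493 / 64000) * H ^ 3 * K ^ 4
      + (1047181 / 400000) * H ^ 4 * U ^ 2
      + (951111 / 400000) * H ^ 4 * K * U
      + (-1290917 / 400000) * H ^ 4 * K * U ^ 2
      + (951111 / 800000) * H ^ 4 * K ^ 2
      + (-2334537 / 800000) * H ^ 4 * K ^ 2 * U
      + (-232493 / 64000) * H ^ 4 * K ^ 3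
      + (8577127 / 2560000) * H ^ 4 * K ^ 4

theorem mom (a b d e : ℝ) : s6 (fun d e => Phi (jS a b d e) (jN a b d e) (jM a b d e)) d e =
    6 * RR (jH a b) (jT a b) (jH d e) (jT d e) := by
  have hN0 := m3N0 a b d e
  have hN1 := m3N1 a b d e
  have hN2 := m3N2 a b d e
  have hN3 := m3N3 a b d e
  have hN4 := m3N4 a b d e
  have hN5 := m3N5 a b d e
  have hN6 := m3N6 a b d e
  have hT0 := m3T0 a b d e
  have hT1 := m3T1 a b d e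
  have hT2 := m3T2 a b d e
  have hT3 := m3T3 a b d e
  have hT4 := m3T4 a b d e
  have hT5 := m3T5 a b d e
  have hNN0 := m3NN0 a b d e
  have hNN1 := m3NN1 a b d e
  have hNN2 := m3NN2 a b d e
  have hNN3 := m3NN3 a b d e
  have hNN4 := m3NN4 a b d e
  have hO2 := m3O2 a b d e
  have hO3 := m3O3 a b d e
  have hO4 := m3O4 a b d e
  have hO5 := m3O5 a b d e
  have hO6 := m3O6 a b d e
  have hO7 := m3O7 a b d e
  have hO8 := m3O8 a b d e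
  simp only [s6, Phi, RR] at *
  linear_combination (-11 / 50) * hN0
    + (11 / 50) * hN1
    + (-43301 / 100000) * hN2
    + (-142251 / 100000) * hN3
    + (13343 / 6250) * hN4
    + (156573 / 25000) * hN5
    + (-297949 / 50000) * hN6
    + (-1) * hT0
    + (2) * hT1
    + (-154053 / 50000) * hT2
    + (333723 / 100000) * hT3
    + (106321 / 100000) * hT4
    + (-28813 / 5000) * hT5
    + (1 / 2) * hNN0
    + (-3 / 2) * hNN1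
    + (81093 / 25000) * hNN2
    + (-478603 / 100000) * hNN3
    + (317037 / 100000) * hNN4
    + (1101 / 10000) * hO2
    + (1991 / 2000) * hO3
    + (205447 / 100000) * hO4
    + (-413971 / 50000) * hO5
    + (-410789 / 50000) * hO6
    + (12) * hO7
    + (1079729 / 100000) * hO8

noncomputable def mult (y : Fin 3 → ℝ) : ℝ := (-5633 / 100000) * fT y + (146173 / 100000) * fH y + (-201 / 400) * fH y ^ 2

theorem main {y z : Fin 3 → ℝ} (hy : Simp y) (hz : Simp z) :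
    avg (fun W => -psi3 W) y z ≤ -((1 - mult z) * psi3 y + (1 - mult y) * psi3 z) := by
  have h0 := avg_le3 (F := (fun W => -psi3 W)) Phi st1 hy hz
  rw [mom, ← fH_eq3 hy, ← fT_eq3 hy, ← fH_eq3 hz, ← fT_eq3 hz] at h0
  refine h0.trans ?_
  have h := Ok.four b00 b01 b10 b11 (side3 hy) (side3 hz)
  simp only [sp2, bil, mon, List.map_cons, List.map_nil, List.zipWith_cons_cons, List.zipWith_nil_right, List.zipWith_nil_left,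
    List.sum_cons, List.sum_nil] at h
  push_cast at h
  simp only [RR, mult, psi3, g3, Q3, rho3, q31, q32, q33]
  linear_combination (1 / 5000000) * h

def spp1 : Spec := ⟨3, 4, [(0, 0, 0), (0, 1, 0), (1, 0, 0), (2, 0, 0)],
  1, 0, [(0, 0, 0)],
  [[1000000],
   [-5633],
   [292346],
   [-201000]],
  1, 1⟩

theorem op100 : Ok spp1 false false r3p (rI 0 1 1) :=
  Ok.chk 32 .leaf (by decide +kernel)

theorem op110 : Ok spp1 true false r3n (rI 0 1 1) :=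
  Ok.chk 33 .leaf (by decide +kernel)

theorem p1 {y : Fin 3 → ℝ} (hy : Simp y) : -10 ≤ mult y := by
  have h := Ok.two rfl op100 op110 (side3 hy)
  simp only [spp1, bil, mon, List.map_cons, List.map_nil, List.zipWith_cons_cons, List.zipWith_nil_right, List.zipWith_nil_left,
    List.sum_cons, List.sum_nil] at h
  push_cast at h
  simp only [psi3, mult]
  linear_combination (1 / 100000) * h

def spp2 : Spec := ⟨3, 4, [(0, 0, 0), (0, 1, 0), (1, 0, 0), (2, 0, 0)],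
  1, 0, [(0, 0, 0)],
  [[100000],
   [5633],
   [-292346],
   [201000]],
  1, 1⟩

theorem op200 : Ok spp2 false false r3p (rI 0 1 1) :=
  Ok.chk 66 (.sl 1 3 0 0 (.sl 1 3 1 0 (.sl 0 1 0 2 .leaf (.sl 1 3 3 0 (.sl 0 1 0 5 (.sl 0 1 1 0 (.sl 0 3 3 2 .leaf .leaf) (.sl 0 1 0 1 (.sl 0 1 1 0 (.sl 0 1 3 0 .leaf (.sl 0 1 0 1 (.sl 0 1 1 0 (.sl 0 1 3 0 .leaf .leaf) .leaf) .leaf)) .leaf) .leaf)) .leaf) (.sl 1 3 0 1 (.sl 0 1 3 2 .leaf .leaf) .leaf))) .leaf) .leaf) (by decide +kernel)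

theorem op210 : Ok spp2 true false r3n (rI 0 1 1) :=
  Ok.chk 30 .leaf (by decide +kernel)

theorem p2 {y : Fin 3 → ℝ} (hy : Simp y) : mult y ≤ 1 := by
  have h := Ok.two rfl op200 op210 (side3 hy)
  simp only [spp2, bil, mon, List.map_cons, List.map_nil, List.zipWith_cons_cons, List.zipWith_nil_right, List.zipWith_nil_left,
    List.sum_cons, List.sum_nil] at h
  push_cast at h
  simp only [psi3, mult]
  linear_combination (1 / 100000) * h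

end Crest.Agent.R163.C3II
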