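import Crest.Agent.R163.C4IIs

/-! R163: a two-point inequality for four states (generated). -/

set_option autoImplicit false
set_option linter.unusedVariables false
set_option linter.unusedSimpArgs false
set_option Elab.async false

namespace Crest.Agent.R163.C4II
open Bil

theorem a00llllllllllllllllllllllll : Ok sp1 false false ⟨⟨3, 0, 0, 1⟩, ⟨0, 0, 0, 0⟩, ⟨0, 0, 0, 0⟩, ⟨93, 0, 0, 32⟩⟩ ⟨⟨1, 1, 1, 1⟩, ⟨127, 127, 126, 128⟩, ⟨64, 63, 63, 64⟩, ⟨127, 127, 127, 128⟩⟩ :=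
  Ok.chk 140 (.sl 0 3 31 0 (.sl 0 3 63 0 (.sl 0 3 127 0 (.sr 0 2 63 0 .leaf .leaf) (.sr 0 2 63 0 .leaf .leaf)) (.sr 0 2 63 0 (.sr 0 1 127 0 .leaf .leaf) .leaf)) (.sr 0 2 63 0 (.sr 0 1 127 0 .leaf .leaf) .leaf)) (by decide +kernel)

theorem a00lllllllllllllllllllllllr : Ok sp1 false false ⟨⟨93, 0, 0, 32⟩, ⟨0, 0, 0, 0⟩, ⟨0, 0, 0, 0⟩, ⟨45, 0, 0, 16⟩⟩ ⟨⟨1, 1, 1, 1⟩, ⟨127, 127, 126, 128⟩, ⟨64, 63, 63, 64⟩, ⟨127, 127, 127, 128⟩⟩ :=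
  Ok.chk 143 (.sr 0 2 63 0 (.sl 0 3 0 1 (.sl 0 3 1 0 (.sl 0 3 3 0 (.sr 0 1 127 0 .leaf .leaf) (.sr 0 1 127 0 .leaf .leaf)) (.sr 0 1 127 0 .leaf .leaf)) (.sr 0 1 127 0 .leaf .leaf)) .leaf) (by decide +kernel)

theorem a00lllllllllllllllllllllll : Ok sp1 false false ⟨⟨3, 0, 0, 1⟩, ⟨0, 0, 0, 0⟩, ⟨0, 0, 0, 0⟩, ⟨45, 0, 0, 16⟩⟩ ⟨⟨1, 1, 1, 1⟩, ⟨127, 127, 126, 128⟩, ⟨64, 63, 63, 64⟩, ⟨127, 127, 127, 128⟩⟩ :=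
  Ok.sl 0 3 15 0 a00llllllllllllllllllllllll a00lllllllllllllllllllllllr (by decide +kernel)

theorem a00llllllllllllllllllllllr : Ok sp1 false false ⟨⟨45, 0, 0, 16⟩, ⟨0, 0, 0, 0⟩, ⟨0, 0, 0, 0⟩, ⟨21, 0, 0, 8⟩⟩ ⟨⟨1, 1, 1, 1⟩, ⟨127, 127, 126, 128⟩, ⟨64, 63, 63, 64⟩, ⟨127, 127, 127, 128⟩⟩ :=
  Ok.chk 116 (.sr 0 2 63 0 .leaf .leaf) (by decide +kernel)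

theorem a00llllllllllllllllllllll : Ok sp1 false false ⟨⟨3, 0, 0, 1⟩, ⟨0, 0, 0, 0⟩, ⟨0, 0, 0, 0⟩, ⟨21, 0, 0, 8⟩⟩ ⟨⟨1, 1, 1, 1⟩, ⟨127, 127, 126, 128⟩, ⟨64, 63, 63, 64⟩, ⟨127, 127, 127, 128⟩⟩ :=
  Ok.sl 0 3 7 0 a00lllllllllllllllllllllll a00llllllllllllllllllllllr (by decide +kernel)

theorem a00lllllllllllllllllllllr : Ok sp1 false false ⟨⟨21, 0, 0, 8⟩, ⟨0, 0, 0, 0⟩, ⟨0, 0, 0, 0⟩, ⟨9, 0, 0, 4⟩⟩ ⟨⟨1, 1, 1, 1⟩, ⟨127, 127, 126, 128⟩, ⟨64, 63, 63, 64⟩, ⟨127, 127, 127, 128⟩⟩ :=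
  Ok.chk 139 (.sl 0 3 0 1 (.sl 0 3 1 0 (.sl 0 3 3 0 (.sl 0 3 7 0 (.sr 0 2 63 0 .leaf .leaf) (.sl 0 3 0 1 (.sr 0 2 63 0 .leaf .leaf) (.sr 0 2 63 0 .leaf .leaf))) (.sr 0 2 63 0 .leaf .leaf)) (.sr 0 2 63 0 .leaf .leaf)) (.sr 0 2 63 0 .leaf .leaf)) (by decide +kernel)

theorem a00lllllllllllllllllllll : Ok sp1 false false ⟨⟨3, 0, 0, 1⟩, ⟨0, 0, 0, 0⟩, ⟨0, 0, 0, 0⟩, ⟨9, 0, 0, 4⟩⟩ ⟨⟨1, 1, 1, 1⟩, ⟨127, 127, 126, 128⟩, ⟨64, 63, 63, 64⟩, ⟨127, 127, 127, 128⟩⟩ :=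
  Ok.sl 0 3 3 0 a00llllllllllllllllllllll a00lllllllllllllllllllllr (by decide +kernel)

theorem a00llllllllllllllllllllr : Ok sp1 false false ⟨⟨9, 0, 0, 4⟩, ⟨0, 0, 0, 0⟩, ⟨0, 0, 0, 0⟩, ⟨3, 0, 0, 2⟩⟩ ⟨⟨1, 1, 1, 1⟩, ⟨127, 127, 126, 128⟩, ⟨64, 63, 63, 64⟩, ⟨127, 127, 127, 128⟩⟩ :=
  Ok.chk 102 (.sr 0 2 63 0 .leaf .leaf) (by decide +kernel)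

theorem a00llllllllllllllllllll : Ok sp1 false false ⟨⟨3, 0, 0, 1⟩, ⟨0, 0, 0, 0⟩, ⟨0, 0, 0, 0⟩, ⟨3, 0, 0, 2⟩⟩ ⟨⟨1, 1, 1, 1⟩, ⟨127, 127, 126, 128⟩, ⟨64, 63, 63, 64⟩, ⟨127, 127, 127, 128⟩⟩ :=
  Ok.sl 0 3 1 0 a00lllllllllllllllllllll a00llllllllllllllllllllr (by decide +kernel)

theorem a00lllllllllllllllllllr : Ok sp1 false false ⟨⟨3, 0, 0, 1⟩, ⟨0, 0, 0, 0⟩, ⟨0, 0, 0, 0⟩, ⟨3, 0, 0, 2⟩⟩ ⟨⟨127, 127, 127, 128⟩, ⟨127, 127, 126, 128⟩, ⟨64, 63, 63, 64⟩, ⟨63, 63, 63, 64⟩⟩ :=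
  Ok.chk 95 .leaf (by decide +kernel)

theorem a00lllllllllllllllllll : Ok sp1 false false ⟨⟨3, 0, 0, 1⟩, ⟨0, 0, 0, 0⟩, ⟨0, 0, 0, 0⟩, ⟨3, 0, 0, 2⟩⟩ ⟨⟨1, 1, 1, 1⟩, ⟨127, 127, 126, 128⟩, ⟨64, 63, 63, 64⟩, ⟨63, 63, 63, 64⟩⟩ :=
  Ok.sr 0 3 63 0 a00llllllllllllllllllll a00lllllllllllllllllllr (by decide +kernel)

theorem a00llllllllllllllllllr : Ok sp1 false false ⟨⟨3, 0, 0, 1⟩, ⟨0, 0, 0, 0⟩, ⟨0, 0, 0, 0⟩, ⟨3, 0, 0, 2⟩⟩ ⟨⟨127, 127, 126, 128⟩, ⟨63, 63, 62, 64⟩, ⟨64, 63, 63, 64⟩, ⟨63, 63, 63, 64⟩⟩ :=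
  Ok.chk 93 .leaf (by decide +kernel)

theorem a00llllllllllllllllll : Ok sp1 false false ⟨⟨3, 0, 0, 1⟩, ⟨0, 0, 0, 0⟩, ⟨0, 0, 0, 0⟩, ⟨3, 0, 0, 2⟩⟩ ⟨⟨1, 1, 1, 1⟩, ⟨63, 63, 62, 64⟩, ⟨64, 63, 63, 64⟩, ⟨63, 63, 63, 64⟩⟩ :=
  Ok.sr 0 1 63 0 a00lllllllllllllllllll a00llllllllllllllllllr (by decide +kernel)

theorem a00lllllllllllllllllr : Ok sp1 false false ⟨⟨3, 0, 0, 1⟩, ⟨0, 0, 0, 0⟩, ⟨0, 0, 0, 0⟩, ⟨3, 0, 0, 2⟩⟩ ⟨⟨64, 63, 63, 64⟩, ⟨63, 63, 62, 64⟩, ⟨32, 31, 31, 32⟩, ⟨63, 63, 63, 64⟩⟩ :=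
  Ok.chk 91 .leaf (by decide +kernel)

theorem a00lllllllllllllllll : Ok sp1 false false ⟨⟨3, 0, 0, 1⟩, ⟨0, 0, 0, 0⟩, ⟨0, 0, 0, 0⟩, ⟨3, 0, 0, 2⟩⟩ ⟨⟨1, 1, 1, 1⟩, ⟨63, 63, 62, 64⟩, ⟨32, 31, 31, 32⟩, ⟨63, 63, 63, 64⟩⟩ :=
  Ok.sr 0 2 31 0 a00llllllllllllllllll a00lllllllllllllllllr (by decide +kernel)

theorem a00llllllllllllllllr : Ok sp1 false false ⟨⟨3, 0, 0, 1⟩, ⟨0, 0, 0, 0⟩, ⟨0, 0, 0, 0⟩, ⟨3, 0, 0, 2⟩⟩ ⟨⟨63, 63, 63, 64⟩, ⟨63, 63, 62, 64⟩, ⟨32, 31, 31, 32⟩, ⟨31, 31, 31, 32⟩⟩ :=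
  Ok.chk 90 .leaf (by decide +kernel)

theorem a00llllllllllllllll : Ok sp1 false false ⟨⟨3, 0, 0, 1⟩, ⟨0, 0, 0, 0⟩, ⟨0, 0, 0, 0⟩, ⟨3, 0, 0, 2⟩⟩ ⟨⟨1, 1, 1, 1⟩, ⟨63, 63, 62, 64⟩, ⟨32, 31, 31, 32⟩, ⟨31, 31, 31, 32⟩⟩ :=
  Ok.sr 0 3 31 0 a00lllllllllllllllll a00llllllllllllllllr (by decide +kernel)

theorem a00lllllllllllllllr : Ok sp1 false false ⟨⟨3, 0, 0, 1⟩, ⟨0, 0, 0, 0⟩, ⟨0, 0, 0, 0⟩, ⟨3, 0, 0, 2⟩⟩ ⟨⟨63, 63, 62, 64⟩, ⟨31, 31, 30, 32⟩, ⟨32, 31, 31, 32⟩, ⟨31, 31, 31, 32⟩⟩ :=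
  Ok.chk 88 .leaf (by decide +kernel)

theorem a00lllllllllllllll : Ok sp1 false false ⟨⟨3, 0, 0, 1⟩, ⟨0, 0, 0, 0⟩, ⟨0, 0, 0, 0⟩, ⟨3, 0, 0, 2⟩⟩ ⟨⟨1, 1, 1, 1⟩, ⟨31, 31, 30, 32⟩, ⟨32, 31, 31, 32⟩, ⟨31, 31, 31, 32⟩⟩ :=
  Ok.sr 0 1 31 0 a00llllllllllllllll a00lllllllllllllllr (by decide +kernel)

theorem a00llllllllllllllr : Ok sp1 false false ⟨⟨3, 0, 0, 1⟩, ⟨0, 0, 0, 0⟩, ⟨0, 0, 0, 0⟩, ⟨3, 0, 0, 2⟩⟩ ⟨⟨32, 31, 31, 32⟩, ⟨31, 31, 30, 32⟩, ⟨16, 15, 15, 16⟩, ⟨31, 31, 31, 32⟩⟩ :=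
  Ok.chk 86 .leaf (by decide +kernel)

theorem a00llllllllllllll : Ok sp1 false false ⟨⟨3, 0, 0, 1⟩, ⟨0, 0, 0, 0⟩, ⟨0, 0, 0, 0⟩, ⟨3, 0, 0, 2⟩⟩ ⟨⟨1, 1, 1, 1⟩, ⟨31, 31, 30, 32⟩, ⟨16, 15, 15, 16⟩, ⟨31, 31, 31, 32⟩⟩ :=
  Ok.sr 0 2 15 0 a00lllllllllllllll a00llllllllllllllr (by decide +kernel)

theorem a00lllllllllllllr : Ok sp1 false false ⟨⟨3, 0, 0, 1⟩, ⟨0, 0, 0, 0⟩, ⟨0, 0, 0, 0⟩, ⟨3, 0, 0, 2⟩⟩ ⟨⟨31, 31, 31, 32⟩, ⟨31, 31, 30, 32⟩, ⟨16, 15, 15, 16⟩, ⟨15, 15, 15, 16⟩⟩ :=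
  Ok.chk 84 .leaf (by decide +kernel)

theorem a00lllllllllllll : Ok sp1 false false ⟨⟨3, 0, 0, 1⟩, ⟨0, 0, 0, 0⟩, ⟨0, 0, 0, 0⟩, ⟨3, 0, 0, 2⟩⟩ ⟨⟨1, 1, 1, 1⟩, ⟨31, 31, 30, 32⟩, ⟨16, 15, 15, 16⟩, ⟨15, 15, 15, 16⟩⟩ :=
  Ok.sr 0 3 15 0 a00llllllllllllll a00lllllllllllllr (by decide +kernel)

theorem a00llllllllllllr : Ok sp1 false false ⟨⟨3, 0, 0, 1⟩, ⟨0, 0, 0, 0⟩, ⟨0, 0, 0, 0⟩, ⟨3, 0, 0, 2⟩⟩ ⟨⟨31, 31, 30, 32⟩, ⟨15, 15, 14, 16⟩, ⟨16, 15, 15, 16⟩, ⟨15, 15, 15, 16⟩⟩ :=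
  Ok.chk 83 .leaf (by decide +kernel)

theorem a00llllllllllll : Ok sp1 false false ⟨⟨3, 0, 0, 1⟩, ⟨0, 0, 0, 0⟩, ⟨0, 0, 0, 0⟩, ⟨3, 0, 0, 2⟩⟩ ⟨⟨1, 1, 1, 1⟩, ⟨15, 15, 14, 16⟩, ⟨16, 15, 15, 16⟩, ⟨15, 15, 15, 16⟩⟩ :=
  Ok.sr 0 1 15 0 a00lllllllllllll a00llllllllllllr (by decide +kernel)

theorem a00lllllllllllr : Ok sp1 false false ⟨⟨3, 0, 0, 1⟩, ⟨0, 0, 0, 0⟩, ⟨0, 0, 0, 0⟩, ⟨3, 0, 0, 2⟩⟩ ⟨⟨16, 15, 15, 16⟩, ⟨15, 15, 14, 16⟩, ⟨8, 7, 7, 8⟩, ⟨15, 15, 15, 16⟩⟩ :=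
  Ok.chk 80 .leaf (by decide +kernel)

theorem a00lllllllllll : Ok sp1 false false ⟨⟨3, 0, 0, 1⟩, ⟨0, 0, 0, 0⟩, ⟨0, 0, 0, 0⟩, ⟨3, 0, 0, 2⟩⟩ ⟨⟨1, 1, 1, 1⟩, ⟨15, 15, 14, 16⟩, ⟨8, 7, 7, 8⟩, ⟨15, 15, 15, 16⟩⟩ :=
  Ok.sr 0 2 7 0 a00llllllllllll a00lllllllllllr (by decide +kernel)

theorem a00llllllllllr : Ok sp1 false false ⟨⟨3, 0, 0, 1⟩, ⟨0, 0, 0, 0⟩, ⟨0, 0, 0, 0⟩, ⟨3, 0, 0, 2⟩⟩ ⟨⟨15, 15, 15, 16⟩, ⟨15, 15, 14, 16⟩, ⟨8, 7, 7, 8⟩, ⟨7, 7, 7, 8⟩⟩ :=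
  Ok.chk 79 .leaf (by decide +kernel)

theorem a00llllllllll : Ok sp1 false false ⟨⟨3, 0, 0, 1⟩, ⟨0, 0, 0, 0⟩, ⟨0, 0, 0, 0⟩, ⟨3, 0, 0, 2⟩⟩ ⟨⟨1, 1, 1, 1⟩, ⟨15, 15, 14, 16⟩, ⟨8, 7, 7, 8⟩, ⟨7, 7, 7, 8⟩⟩ :=
  Ok.sr 0 3 7 0 a00lllllllllll a00llllllllllr (by decide +kernel)

theorem a00lllllllllr : Ok sp1 false false ⟨⟨3, 0, 0, 1⟩, ⟨0, 0, 0, 0⟩, ⟨0, 0, 0, 0⟩, ⟨3, 0, 0, 2⟩⟩ ⟨⟨15, 15, 14, 16⟩, ⟨7, 7, 6, 8⟩, ⟨8, 7, 7, 8⟩, ⟨7, 7, 7, 8⟩⟩ :=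
  Ok.chk 78 .leaf (by decide +kernel)

theorem a00lllllllll : Ok sp1 false false ⟨⟨3, 0, 0, 1⟩, ⟨0, 0, 0, 0⟩, ⟨0, 0, 0, 0⟩, ⟨3, 0, 0, 2⟩⟩ ⟨⟨1, 1, 1, 1⟩, ⟨7, 7, 6, 8⟩, ⟨8, 7, 7, 8⟩, ⟨7, 7, 7, 8⟩⟩ :=
  Ok.sr 0 1 7 0 a00llllllllll a00lllllllllr (by decide +kernel)

theorem a00llllllllr : Ok sp1 false false ⟨⟨3, 0, 0, 1⟩, ⟨0, 0, 0, 0⟩, ⟨0, 0, 0, 0⟩, ⟨3, 0, 0, 2⟩⟩ ⟨⟨8, 7, 7, 8⟩, ⟨7, 7, 6, 8⟩, ⟨4, 3, 3, 4⟩, ⟨7, 7, 7, 8⟩⟩ :=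
  Ok.chk 75 .leaf (by decide +kernel)

theorem a00llllllll : Ok sp1 false false ⟨⟨3, 0, 0, 1⟩, ⟨0, 0, 0, 0⟩, ⟨0, 0, 0, 0⟩, ⟨3, 0, 0, 2⟩⟩ ⟨⟨1, 1, 1, 1⟩, ⟨7, 7, 6, 8⟩, ⟨4, 3, 3, 4⟩, ⟨7, 7, 7, 8⟩⟩ :=
  Ok.sr 0 2 3 0 a00lllllllll a00llllllllr (by decide +kernel)

theorem a00lllllllr : Ok sp1 false false ⟨⟨3, 0, 0, 1⟩, ⟨0, 0, 0, 0⟩, ⟨0, 0, 0, 0⟩, ⟨3, 0, 0, 2⟩⟩ ⟨⟨7, 7, 7, 8⟩, ⟨7, 7, 6, 8⟩, ⟨4, 3, 3, 4⟩, ⟨3, 3, 3, 4⟩⟩ :=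
  Ok.chk 74 .leaf (by decide +kernel)

theorem a00lllllll : Ok sp1 false false ⟨⟨3, 0, 0, 1⟩, ⟨0, 0, 0, 0⟩, ⟨0, 0, 0, 0⟩, ⟨3, 0, 0, 2⟩⟩ ⟨⟨1, 1, 1, 1⟩, ⟨7, 7, 6, 8⟩, ⟨4, 3, 3, 4⟩, ⟨3, 3, 3, 4⟩⟩ :=
  Ok.sr 0 3 3 0 a00llllllll a00lllllllr (by decide +kernel)

theorem a00llllllr : Ok sp1 false false ⟨⟨3, 0, 0, 1⟩, ⟨0, 0, 0, 0⟩, ⟨0, 0, 0, 0⟩, ⟨3, 0, 0, 2⟩⟩ ⟨⟨7, 7, 6, 8⟩, ⟨3, 3, 2, 4⟩, ⟨4, 3, 3, 4⟩, ⟨3, 3, 3, 4⟩⟩ :=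
  Ok.chk 72 .leaf (by decide +kernel)

theorem a00llllll : Ok sp1 false false ⟨⟨3, 0, 0, 1⟩, ⟨0, 0, 0, 0⟩, ⟨0, 0, 0, 0⟩, ⟨3, 0, 0, 2⟩⟩ ⟨⟨1, 1, 1, 1⟩, ⟨3, 3, 2, 4⟩, ⟨4, 3, 3, 4⟩, ⟨3, 3, 3, 4⟩⟩ :=
  Ok.sr 0 1 3 0 a00lllllll a00llllllr (by decide +kernel)

theorem a00lllllr : Ok sp1 false false ⟨⟨3, 0, 0, 1⟩, ⟨0, 0, 0, 0⟩, ⟨0, 0, 0, 0⟩, ⟨3, 0, 0, 2⟩⟩ ⟨⟨4, 3, 3, 4⟩, ⟨3, 3, 2, 4⟩, ⟨2, 1, 1, 2⟩, ⟨3, 3, 3, 4⟩⟩ :=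
  Ok.chk 69 .leaf (by decide +kernel)

theorem a00lllll : Ok sp1 false false ⟨⟨3, 0, 0, 1⟩, ⟨0, 0, 0, 0⟩, ⟨0, 0, 0, 0⟩, ⟨3, 0, 0, 2⟩⟩ ⟨⟨1, 1, 1, 1⟩, ⟨3, 3, 2, 4⟩, ⟨2, 1, 1, 2⟩, ⟨3, 3, 3, 4⟩⟩ :=
  Ok.sr 0 2 1 0 a00llllll a00lllllr (by decide +kernel)

theorem a00llllr : Ok sp1 false false ⟨⟨3, 0, 0, 1⟩, ⟨0, 0, 0, 0⟩, ⟨0, 0, 0, 0⟩, ⟨3, 0, 0, 2⟩⟩ ⟨⟨3, 3, 3, 4⟩, ⟨3, 3, 2, 4⟩, ⟨2, 1, 1, 2⟩, ⟨1, 1, 1, 2⟩⟩ :=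
  Ok.chk 68 .leaf (by decide +kernel)

theorem a00llll : Ok sp1 false false ⟨⟨3, 0, 0, 1⟩, ⟨0, 0, 0, 0⟩, ⟨0, 0, 0, 0⟩, ⟨3, 0, 0, 2⟩⟩ ⟨⟨1, 1, 1, 1⟩, ⟨3, 3, 2, 4⟩, ⟨2, 1, 1, 2⟩, ⟨1, 1, 1, 2⟩⟩ :=
  Ok.sr 0 3 1 0 a00lllll a00llllr (by decide +kernel)

theorem a00lllr : Ok sp1 false false ⟨⟨3, 0, 0, 1⟩, ⟨0, 0, 0, 0⟩, ⟨0, 0, 0, 0⟩, ⟨3, 0, 0, 2⟩⟩ ⟨⟨3, 3, 2, 4⟩, ⟨1, 1, 0, 2⟩, ⟨2, 1, 1, 2⟩, ⟨1, 1, 1, 2⟩⟩ :=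
  Ok.chk 66 .leaf (by decide +kernel)

theorem a00lll : Ok sp1 false false ⟨⟨3, 0, 0, 1⟩, ⟨0, 0, 0, 0⟩, ⟨0, 0, 0, 0⟩, ⟨3, 0, 0, 2⟩⟩ ⟨⟨1, 1, 1, 1⟩, ⟨1, 1, 0, 2⟩, ⟨2, 1, 1, 2⟩, ⟨1, 1, 1, 2⟩⟩ :=
  Ok.sr 0 1 1 0 a00llll a00lllr (by decide +kernel)

theorem a00llr : Ok sp1 false false ⟨⟨3, 0, 0, 1⟩, ⟨0, 0, 0, 0⟩, ⟨0, 0, 0, 0⟩, ⟨3, 0, 0, 2⟩⟩ ⟨⟨2, 1, 1, 2⟩, ⟨1, 1, 0, 2⟩, ⟨1, 0, 0, 1⟩, ⟨1, 1, 1, 2⟩⟩ :=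
  Ok.chk 63 .leaf (by decide +kernel)

theorem a00ll : Ok sp1 false false ⟨⟨3, 0, 0, 1⟩, ⟨0, 0, 0, 0⟩, ⟨0, 0, 0, 0⟩, ⟨3, 0, 0, 2⟩⟩ ⟨⟨1, 1, 1, 1⟩, ⟨1, 1, 0, 2⟩, ⟨1, 0, 0, 1⟩, ⟨1, 1, 1, 2⟩⟩ :=
  Ok.sr 0 2 0 0 a00lll a00llr (by decide +kernel)

theorem a00lr : Ok sp1 false false ⟨⟨3, 0, 0, 1⟩, ⟨0, 0, 0, 0⟩, ⟨0, 0, 0, 0⟩, ⟨3, 0, 0, 2⟩⟩ ⟨⟨1, 1, 1, 2⟩, ⟨1, 1, 0, 2⟩, ⟨1, 0, 0, 1⟩, ⟨0, 0, 0, 1⟩⟩ :=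
  Ok.chk 78 (.sl 0 3 1 0 .leaf (.sl 0 3 0 1 .leaf (.sl 0 3 0 3 .leaf .leaf))) (by decide +kernel)

theorem a00l : Ok sp1 false false ⟨⟨3, 0, 0, 1⟩, ⟨0, 0, 0, 0⟩, ⟨0, 0, 0, 0⟩, ⟨3, 0, 0, 2⟩⟩ r4p :=
  Ok.sr 0 3 0 0 a00ll a00lr (by decide +kernel)

theorem a00rl : Ok sp1 false false ⟨⟨3, 0, 0, 2⟩, ⟨0, 0, 0, 0⟩, ⟨0, 0, 0, 0⟩, ⟨3, 0, 0, 4⟩⟩ r4p :=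
  Ok.chk 81 (.sr 0 3 0 0 (.sr 0 2 0 0 (.sr 0 1 1 0 (.sr 0 3 1 0 (.sr 0 2 1 0 (.sr 0 1 3 0 (.sr 0 3 3 0 (.sr 0 2 3 0 (.sr 0 1 7 0 (.sr 0 3 7 0 .leaf .leaf) .leaf) .leaf) .leaf) .leaf) .leaf) .leaf) .leaf) .leaf) .leaf) (by decide +kernel)

theorem a00rr : Ok sp1 false false ⟨⟨3, 0, 0, 4⟩, ⟨0, 0, 0, 0⟩, ⟨0, 0, 0, 0⟩, ⟨0, 0, 0, 1⟩⟩ r4p :=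
  Ok.chk 79 (.sr 0 3 0 0 (.sr 0 2 0 0 (.sr 0 1 1 0 (.sr 0 3 1 0 (.sl 0 3 0 3 (.sr 0 2 1 0 (.sr 0 1 3 0 (.sr 0 3 3 0 .leaf .leaf) .leaf) .leaf) .leaf) .leaf) .leaf) .leaf) (.sl 0 3 0 3 .leaf .leaf)) (by decide +kernel)

theorem a00r : Ok sp1 false false ⟨⟨3, 0, 0, 2⟩, ⟨0, 0, 0, 0⟩, ⟨0, 0, 0, 0⟩, ⟨0, 0, 0, 1⟩⟩ r4p :=
  Ok.sl 0 3 0 1 a00rl a00rr (by decide +kernel)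

theorem a00 : Ok sp1 false false (rI 0 3 1) r4p :=
  Ok.sl 0 3 0 0 a00l a00r (by decide +kernel)

theorem a01 : Ok sp1 false true (rI 0 3 1) r4n :=
  Ok.chk 79 (.sl 0 3 0 0 (.sl 0 3 1 0 .leaf (.sl 0 3 0 1 .leaf (.sl 0 3 0 3 .leaf .leaf))) (.sl 0 3 0 1 .leaf (.sl 0 3 0 3 .leaf .leaf))) (by decide +kernel)

theorem a10 : Ok sp1 true false (rI 0 1 1) r4p :=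
  Ok.chk 60 (.sl 0 3 0 0 (.sl 0 3 1 0 .leaf .leaf) .leaf) (by decide +kernel)

theorem a11 : Ok sp1 true true (rI 0 1 1) r4n :=
  Ok.chk 62 (.sl 0 3 0 0 (.sl 0 3 1 0 .leaf .leaf) .leaf) (by decide +kernel)

end Crest.Agent.R163.C4II
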