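import Crest.Agent.R163.BilOk

/-! R163: a two-point inequality for four states (generated). -/

set_option autoImplicit false
set_option linter.unusedVariables false
set_option linter.unusedSimpArgs false
set_option Elab.async false

namespace Crest.Agent.R163.C4II
open Bil

def sp1 : Spec := ⟨1, 6, [(0, 0, 0), (0, 1, 0), (0, 2, 0), (0, 3, 0), (0, 4, 0), (0, 5, 0), (0, 6, 0)],
  4, 5, [(0, 0, 0), (0, 0, 1), (0, 1, 0), (1, 0, 0), (1, 1, 0), (2, 0, 0)],
  [[4899215, -102245159, 322440420, 108179224, 197284620, -102451440],
   [-53161379, 111793979, -966271626, 177087, -149210790, 127316370],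
   [670953971, 629621897, -864299244, -1014902056, -1185323250, 542516389],
   [688361701, 405644618, 2119279662, -980018076, -815492700, 149873056],
   [-712044227, -259180353, 1244311890, 659272968, 718084200, -429543866],
   [-415871421, -339247821, -1160411532, 847181849, 999115170, -327931834],
   [274348422, -90005609, -709856562, 114790724, 304366110, -61263491]],
  1, 216⟩

def sp2 : Spec := ⟨4, 8, [(0, 0, 1), (0, 0, 2), (0, 1, 0), (0, 1, 1), (0, 2, 0), (1, 0, 0), (1, 0, 1), (1, 1, 0), (1, 2, 0), (2, 0, 0), (2, 0, 1), (2, 1, 0), (3, 0, 0), (4, 0, 0)],
  4, 8, [(0, 0, 1), (0, 0, 2), (0, 1, 0), (0, 1, 1), (0, 2, 0), (1, 0, 0), (1, 0, 1), (1, 1, 0), (1, 2, 0), (2, 0, 0), (2, 0, 1), (2, 1, 0), (3, 0, 0), (4, 0, 0)],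
  [[-15439050568, 1800112180, 29951312208, -26116207520, 12999671436, -5058600000, 9653245672, -50174319024, -18870698820, 12646148016, 256515164, 25741511536, -4945466476, -245053964],
   [1800112180, -66929504608, 0, -56947093280, 20741758164, 0, 15122586876, -9739715520, 77804157700, -360022436, 14479555736, 17820952416, -4056890688, -393176828],
   [29951312208, 0, -21484694484, 24342452100, -24497497296, -5536800000, -31262193384, 33601597908, -10957179960, 2354256000, 0, 15528772440, -1728000000, 0],
   [-26116207520, -56947093280, 24342452100, 266147502408, -193595278464, 0, -22230530336, -11774896632, 114954335888, 16932066016, 23681676976, -82768081604, 5042132992, -4056890688],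
   [12999671436, 20741758164, -24497497296, -193595278464, -256257306261, -6912000000, 38100634599, 125628454608, 218197433781, -27569397228, -21363945723, -19321058208, 16078445730, -1963939890],
   [-5058600000, 0, -5536800000, 0, -6912000000, 949001570, -1547509682, 13889423160, 0, 334657552, 0, 1045430760, -539097120, 0],
   [9653245672, 15122586876, -31262193384, -22230530336, 38100634599, -1547509682, 1027245431, 42560044792, -5633996655, -4446517644, -6352518927, -11382618592, 61701244, 1113809526],
   [-50174319024, -9739715520, 33601597908, -11774896632, 125628454608, 13889423160, 42560044792, -77432184924, -5287436192, -7442151276, 491095408, 117776504, 1602594832, -608732220],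
   [-18870698820, 77804157700, -10957179960, 114954335888, 218197433781, 0, -5633996655, -5287436192, -468382459383, -608732220, 23340460721, -13731174168, -2280663306, -2030248674],
   [12646148016, -360022436, 2354256000, 16932066016, -27569397228, 334657552, -4446517644, -7442151276, -608732220, -3350357218, -673774966, -1559233208, 2044460076, 122526982],
   [256515164, 14479555736, 0, 23681676976, -21363945723, 0, -6352518927, 491095408, 23340460721, -673774966, -14458982103, -2922400368, 2533522650, 1965205928],
   [25741511536, 17820952416, 15528772440, -82768081604, -19321058208, 1045430760, -11382618592, 117776504, -13731174168, -1559233208, -2922400368, 26568083456, -3885081596, 1419713124],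
   [-4945466476, -4056890688, -1728000000, 5042132992, 16078445730, -539097120, 61701244, 1602594832, -2280663306, 2044460076, 2533522650, -3885081596, -311151258, -229581448],
   [-245053964, -393176828, 0, -4056890688, -1963939890, 0, 1113809526, -608732220, -2030248674, 122526982, 1965205928, 1419713124, -229581448, -548696844]],
  1, 729⟩

end Crest.Agent.R163.C4II
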