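import Crest.Agent.R163.KronDef

/-! R163: moments over the symmetric group (generated). -/

set_option autoImplicit false
set_option linter.unusedVariables false
set_option Elab.async false
set_option linter.unusedSimpArgs false

namespace Crest.Agent.R163

open PE in
theorem m3O2 (a b d e : ℝ) : s6 (fun d e => 1 * jS a b d e ^ 2) d e =
    6 * ((1 / 2) * jH a b * jH d e) := by
  have h := PE.sound 10 3
    (mul (cst 1) (p6 (fun d e => mul (cst 1) (pow (rS v0 v1 d e) 2)) v2 v3))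
    (tm3 (3) 1 0 1 0)
    (by decide +kernel) ![a, b, d, e, 0, 0]
  simp only [p6, PE.ev_add, ev_mul, ev_neg, ev_pow, ev_cst, ev_rS, ev_rN, ev_rM, ev_rf, ev_tm3, ev_v0, ev_v1, ev_v2,
    ev_v3] at h
  simp only [s6]
  push_cast at h
  linear_combination (1 / 9) * h

open PE in
theorem m3O3 (a b d e : ℝ) : s6 (fun d e => 1 * jS a b d e ^ 3) d e =
    6 * ((1 / 2) * jT a b * jT d e) := by
  have h := PE.sound 14 4
    (mul (cst 1) (p6 (fun d e => mul (cst 1) (pow (rS v0 v1 d e) 3)) v2 v3))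
    (tm3 (81) 0 1 0 1)
    (by decide +kernel) ![a, b, d, e, 0, 0]
  simp only [p6, PE.ev_add, ev_mul, ev_neg, ev_pow, ev_cst, ev_rS, ev_rN, ev_rM, ev_rf, ev_tm3, ev_v0, ev_v1, ev_v2,
    ev_v3] at h
  simp only [s6]
  push_cast at h
  linear_combination (1 / 27) * h

open PE in
theorem m3O4 (a b d e : ℝ) : s6 (fun d e => 1 * jS a b d e ^ 4) d e =
    6 * ((3 / 8) * jH a b ^ 2 * jH d e ^ 2) := by
  have h := PE.sound 19 5
    (mul (cst 4) (p6 (fun d e => mul (cst 1) (pow (rS v0 v1 d e) 4)) v2 v3))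
    (tm3 (9) 2 0 2 0)
    (by decide +kernel) ![a, b, d, e, 0, 0]
  simp only [p6, PE.ev_add, ev_mul, ev_neg, ev_pow, ev_cst, ev_rS, ev_rN, ev_rM, ev_rf, ev_tm3, ev_v0, ev_v1, ev_v2,
    ev_v3] at h
  simp only [s6]
  push_cast at h
  linear_combination (1 / 324) * h

open PE in
theorem m3O5 (a b d e : ℝ) : s6 (fun d e => 1 * jS a b d e ^ 5) d e =
    6 * ((5 / 8) * jH a b * jT a b * jH d e * jT d e) := by
  have h := PE.sound 23 6
    (mul (cst 4) (p6 (fun d e => mul (cst 1) (pow (rS v0 v1 d e) 5)) v2 v3))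
    (tm3 (405) 1 1 1 1)
    (by decide +kernel) ![a, b, d, e, 0, 0]
  simp only [p6, PE.ev_add, ev_mul, ev_neg, ev_pow, ev_cst, ev_rS, ev_rN, ev_rM, ev_rf, ev_tm3, ev_v0, ev_v1, ev_v2,
    ev_v3] at h
  simp only [s6]
  push_cast at h
  linear_combination (1 / 972) * h

open PE in
theorem m3O6 (a b d e : ℝ) : s6 (fun d e => 1 * jS a b d e ^ 6) d e =
    6 * ((1 / 2) * jT a b ^ 2 * jT d e ^ 2
      + (-1 / 8) * jT a b ^ 2 * jH d e ^ 3
      + (-1 / 8) * jH a b ^ 3 * jT d e ^ 2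
      + (11 / 32) * jH a b ^ 3 * jH d e ^ 3) := by
  have h := PE.sound 29 7
    (mul (cst 16) (p6 (fun d e => mul (cst 1) (pow (rS v0 v1 d e) 6)) v2 v3))
    (add (add (tm3 (34992) 0 2 0 2) (tm3 (-324) 0 2 3 0)) (add (tm3 (-324) 3 0 0 2) (tm3 (33) 3 0 3 0)))
    (by decide +kernel) ![a, b, d, e, 0, 0]
  simp only [p6, PE.ev_add, ev_mul, ev_neg, ev_pow, ev_cst, ev_rS, ev_rN, ev_rM, ev_rf, ev_tm3, ev_v0, ev_v1, ev_v2,
    ev_v3] at h
  simp only [s6]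
  push_cast at h
  linear_combination (1 / 11664) * h

open PE in
theorem m3O7 (a b d e : ℝ) : s6 (fun d e => 1 * jS a b d e ^ 7) d e =
    6 * ((21 / 32) * jH a b ^ 2 * jT a b * jH d e ^ 2 * jT d e) := by
  have h := PE.sound 32 8
    (mul (cst 16) (p6 (fun d e => mul (cst 1) (pow (rS v0 v1 d e) 7)) v2 v3))
    (tm3 (1701) 2 1 2 1)
    (by decide +kernel) ![a, b, d, e, 0, 0]
  simp only [p6, PE.ev_add, ev_mul, ev_neg, ev_pow, ev_cst, ev_rS, ev_rN, ev_rM, ev_rf, ev_tm3, ev_v0, ev_v1, ev_v2,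
    ev_v3] at h
  simp only [s6]
  push_cast at h
  linear_combination (1 / 34992) * h

open PE in
theorem m3O8 (a b d e : ℝ) : s6 (fun d e => 1 * jS a b d e ^ 8) d e =
    6 * ((1) * jH a b * jT a b ^ 2 * jH d e * jT d e ^ 2
      + (-1 / 4) * jH a b * jT a b ^ 2 * jH d e ^ 4
      + (-1 / 4) * jH a b ^ 4 * jH d e * jT d e ^ 2
      + (43 / 128) * jH a b ^ 4 * jH d e ^ 4) := by
  have h := PE.sound 38 9
    (mul (cst 64) (p6 (fun d e => mul (cst 1) (pow (rS v0 v1 d e) 8)) v2 v3))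
    (add (add (tm3 (279936) 1 2 1 2) (tm3 (-2592) 1 2 4 0)) (add (tm3 (-2592) 4 0 1 2) (tm3 (129) 4 0 4 0)))
    (by decide +kernel) ![a, b, d, e, 0, 0]
  simp only [p6, PE.ev_add, ev_mul, ev_neg, ev_pow, ev_cst, ev_rS, ev_rN, ev_rM, ev_rf, ev_tm3, ev_v0, ev_v1, ev_v2,
    ev_v3] at h
  simp only [s6]
  push_cast at h
  linear_combination (1 / 419904) * h

open PE in
theorem m3N0 (a b d e : ℝ) : s6 (fun d e => jN a b d e * jS a b d e ^ 0) d e =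
    6 * ((1) * jH d e
      + (1) * jH a b
      + (1 / 2) * jH a b * jH d e) := by
  have h := PE.sound 15 3
    (mul (cst 1) (p6 (fun d e => mul (rN v0 v1 d e) (pow (rS v0 v1 d e) 0)) v2 v3))
    (add (tm3 (54) 0 0 1 0) (add (tm3 (54) 1 0 0 0) (tm3 (9) 1 0 1 0)))
    (by decide +kernel) ![a, b, d, e, 0, 0]
  simp only [p6, PE.ev_add, ev_mul, ev_neg, ev_pow, ev_cst, ev_rS, ev_rN, ev_rM, ev_rf, ev_tm3, ev_v0, ev_v1, ev_v2,
    ev_v3] at h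
  simp only [s6]
  push_cast at h
  linear_combination (1 / 27) * h

open PE in
theorem m3N1 (a b d e : ℝ) : s6 (fun d e => jN a b d e * jS a b d e ^ 1) d e =
    6 * ((1) * jT a b * jH d e
      + (1) * jH a b * jT d e
      + (1) * jH a b * jH d e) := by
  have h := PE.sound 19 4
    (mul (cst 1) (p6 (fun d e => mul (rN v0 v1 d e) (pow (rS v0 v1 d e) 1)) v2 v3))
    (add (tm3 (162) 0 1 1 0) (add (tm3 (162) 1 0 0 1) (tm3 (54) 1 0 1 0)))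
    (by decide +kernel) ![a, b, d, e, 0, 0]
  simp only [p6, PE.ev_add, ev_mul, ev_neg, ev_pow, ev_cst, ev_rS, ev_rN, ev_rM, ev_rf, ev_tm3, ev_v0, ev_v1, ev_v2,
    ev_v3] at h
  simp only [s6]
  push_cast at h
  linear_combination (1 / 81) * h

open PE in
theorem m3N2 (a b d e : ℝ) : s6 (fun d e => jN a b d e * jS a b d e ^ 2) d e =
    6 * ((1) * jT a b * jT d e
      + (1 / 2) * jT a b * jH d e ^ 2
      + (1 / 2) * jH a b * jH d e ^ 2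
      + (1 / 2) * jH a b ^ 2 * jT d e
      + (1 / 2) * jH a b ^ 2 * jH d e
      + (1 / 4) * jH a b ^ 2 * jH d e ^ 2) := by
  have h := PE.sound 23 5
    (mul (cst 2) (p6 (fun d e => mul (rN v0 v1 d e) (pow (rS v0 v1 d e) 2)) v2 v3))
    (add (add (tm3 (2916) 0 1 0 1) (add (tm3 (162) 0 1 2 0) (tm3 (54) 1 0 2 0))) (add (tm3 (162) 2 0 0 1) (add (tm3 (54) 2 0 1 0) (tm3 (9) 2 0 2 0))))
    (by decide +kernel) ![a, b, d, e, 0, 0]
  simp only [p6, PE.ev_add, ev_mul, ev_neg, ev_pow, ev_cst, ev_rS, ev_rN, ev_rM, ev_rf, ev_tm3, ev_v0, ev_v1, ev_v2,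
    ev_v3] at h
  simp only [s6]
  push_cast at h
  linear_combination (1 / 486) * h

open PE in
theorem m3N3 (a b d e : ℝ) : s6 (fun d e => jN a b d e * jS a b d e ^ 3) d e =
    6 * ((1 / 2) * jT a b * jH d e * jT d e
      + (1 / 2) * jH a b * jT a b * jT d e
      + (1 / 4) * jH a b * jT a b * jH d e * jT d e
      + (3 / 4) * jH a b * jT a b * jH d e ^ 2
      + (3 / 4) * jH a b ^ 2 * jH d e * jT d e
      + (3 / 4) * jH a b ^ 2 * jH d e ^ 2) := by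
  have h := PE.sound 27 6
    (mul (cst 2) (p6 (fun d e => mul (rN v0 v1 d e) (pow (rS v0 v1 d e) 3)) v2 v3))
    (add (add (tm3 (1458) 0 1 1 1) (add (tm3 (1458) 1 1 0 1) (tm3 (243) 1 1 1 1))) (add (tm3 (243) 1 1 2 0) (add (tm3 (243) 2 0 1 1) (tm3 (81) 2 0 2 0))))
    (by decide +kernel) ![a, b, d, e, 0, 0]
  simp only [p6, PE.ev_add, ev_mul, ev_neg, ev_pow, ev_cst, ev_rS, ev_rN, ev_rM, ev_rf, ev_tm3, ev_v0, ev_v1, ev_v2,
    ev_v3] at h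
  simp only [s6]
  push_cast at h
  linear_combination (1 / 1458) * h

open PE in
theorem m3N4 (a b d e : ℝ) : s6 (fun d e => jN a b d e * jS a b d e ^ 4) d e =
    6 * ((1 / 2) * jT a b ^ 2 * jH d e * jT d e
      + (1 / 2) * jH a b * jT a b * jT d e ^ 2
      + (5 / 4) * jH a b * jT a b * jH d e * jT d e
      + (3 / 8) * jH a b * jT a b * jH d e ^ 3
      + (3 / 8) * jH a b ^ 2 * jH d e ^ 3
      + (3 / 8) * jH a b ^ 3 * jH d e * jT d e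
      + (3 / 8) * jH a b ^ 3 * jH d e ^ 2
      + (3 / 16) * jH a b ^ 3 * jH d e ^ 3) := by
  have h := PE.sound 33 7
    (mul (cst 8) (p6 (fun d e => mul (rN v0 v1 d e) (pow (rS v0 v1 d e) 4)) v2 v3))
    (add (add (add (tm3 (17496) 0 2 1 1) (tm3 (17496) 1 1 0 2)) (add (tm3 (14580) 1 1 1 1) (tm3 (486) 1 1 3 0))) (add (add (tm3 (162) 2 0 3 0) (tm3 (486) 3 0 1 1)) (add (tm3 (162) 3 0 2 0) (tm3 (27) 3 0 3 0))))
    (by decide +kernel) ![a, b, d, e, 0, 0]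
  simp only [p6, PE.ev_add, ev_mul, ev_neg, ev_pow, ev_cst, ev_rS, ev_rN, ev_rM, ev_rf, ev_tm3, ev_v0, ev_v1, ev_v2,
    ev_v3] at h
  simp only [s6]
  push_cast at h
  linear_combination (1 / 17496) * h

open PE in
theorem m3N5 (a b d e : ℝ) : s6 (fun d e => jN a b d e * jS a b d e ^ 5) d e =
    6 * ((1) * jT a b ^ 2 * jT d e ^ 2
      + (1 / 4) * jT a b ^ 2 * jH d e ^ 2 * jT d e
      + (-1 / 4) * jT a b ^ 2 * jH d e ^ 3
      + (5 / 8) * jH a b * jT a b * jH d e ^ 2 * jT d e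
      + (1 / 4) * jH a b ^ 2 * jT a b * jT d e ^ 2
      + (5 / 8) * jH a b ^ 2 * jT a b * jH d e * jT d e
      + (5 / 16) * jH a b ^ 2 * jT a b * jH d e ^ 2 * jT d e
      + (9 / 16) * jH a b ^ 2 * jT a b * jH d e ^ 3
      + (-1 / 4) * jH a b ^ 3 * jT d e ^ 2
      + (9 / 16) * jH a b ^ 3 * jH d e ^ 2 * jT d e
      + (11 / 16) * jH a b ^ 3 * jH d e ^ 3) := by
  have h := PE.sound 36 8
    (mul (cst 8) (p6 (fun d e => mul (rN v0 v1 d e) (pow (rS v0 v1 d e) 5)) v2 v3))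
    (add (add (add (tm3 (314928) 0 2 0 2) (tm3 (8748) 0 2 2 1)) (add (tm3 (-2916) 0 2 3 0) (add (tm3 (7290) 1 1 2 1) (tm3 (8748) 2 1 0 2)))) (add (add (tm3 (7290) 2 1 1 1) (add (tm3 (1215) 2 1 2 1) (tm3 (729) 2 1 3 0))) (add (tm3 (-2916) 3 0 0 2) (add (tm3 (729) 3 0 2 1) (tm3 (297) 3 0 3 0)))))
    (by decide +kernel) ![a, b, d, e, 0, 0]
  simp only [p6, PE.ev_add, ev_mul, ev_neg, ev_pow, ev_cst, ev_rS, ev_rN, ev_rM, ev_rf, ev_tm3, ev_v0, ev_v1, ev_v2,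
    ev_v3] at h
  simp only [s6]
  push_cast at h
  linear_combination (1 / 52488) * h

open PE in
theorem m3N6 (a b d e : ℝ) : s6 (fun d e => jN a b d e * jS a b d e ^ 6) d e =
    6 * ((1 / 2) * jT a b ^ 2 * jH d e * jT d e ^ 2
      + (-1 / 8) * jT a b ^ 2 * jH d e ^ 4
      + (1 / 2) * jH a b * jT a b ^ 2 * jT d e ^ 2
      + (1 / 4) * jH a b * jT a b ^ 2 * jH d e * jT d e ^ 2
      + (3 / 4) * jH a b * jT a b ^ 2 * jH d e ^ 2 * jT d e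
      + (-1 / 8) * jH a b * jT a b ^ 2 * jH d e ^ 3
      + (-1 / 16) * jH a b * jT a b ^ 2 * jH d e ^ 4
      + (3 / 4) * jH a b ^ 2 * jT a b * jH d e * jT d e ^ 2
      + (21 / 16) * jH a b ^ 2 * jT a b * jH d e ^ 2 * jT d e
      + (9 / 32) * jH a b ^ 2 * jT a b * jH d e ^ 4
      + (-1 / 8) * jH a b ^ 3 * jH d e * jT d e ^ 2
      + (11 / 32) * jH a b ^ 3 * jH d e ^ 4
      + (-1 / 8) * jH a b ^ 4 * jT d e ^ 2
      + (-1 / 16) * jH a b ^ 4 * jH d e * jT d e ^ 2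
      + (9 / 32) * jH a b ^ 4 * jH d e ^ 2 * jT d e
      + (11 / 32) * jH a b ^ 4 * jH d e ^ 3
      + (11 / 64) * jH a b ^ 4 * jH d e ^ 4) := by
  have h := PE.sound 42 9
    (mul (cst 32) (p6 (fun d e => mul (rN v0 v1 d e) (pow (rS v0 v1 d e) 6)) v2 v3))
    (add (add (add (add (tm3 (629856) 0 2 1 2) (tm3 (-5832) 0 2 4 0)) (add (tm3 (629856) 1 2 0 2) (tm3 (104976) 1 2 1 2))) (add (add (tm3 (104976) 1 2 2 1) (tm3 (-5832) 1 2 3 0)) (add (tm3 (-972) 1 2 4 0) (tm3 (104976) 2 1 1 2)))) (add (add (add (tm3 (61236) 2 1 2 1) (tm3 (1458) 2 1 4 0)) (add (tm3 (-5832) 3 0 1 2) (tm3 (594) 3 0 4 0))) (add (add (tm3 (-5832) 4 0 0 2) (tm3 (-972) 4 0 1 2)) (add (tm3 (1458) 4 0 2 1) (add (tm3 (594) 4 0 3 0) (tm3 (99) 4 0 4 0))))))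
    (by decide +kernel) ![a, b, d, e, 0, 0]
  simp only [p6, PE.ev_add, ev_mul, ev_neg, ev_pow, ev_cst, ev_rS, ev_rN, ev_rM, ev_rf, ev_tm3, ev_v0, ev_v1, ev_v2,
    ev_v3] at h
  simp only [s6]
  push_cast at h
  linear_combination (1 / 629856) * h

open PE in
theorem m3T0 (a b d e : ℝ) : s6 (fun d e => jM a b d e * jS a b d e ^ 0) d e =
    6 * ((1) * jT d e
      + (1) * jT a b
      + (1 / 2) * jT a b * jT d e
      + (3) * jH a b * jH d e) := by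
  have h := PE.sound 18 4
    (mul (cst 1) (p6 (fun d e => mul (rM v0 v1 d e) (pow (rS v0 v1 d e) 0)) v2 v3))
    (add (add (tm3 (162) 0 0 0 1) (tm3 (162) 0 1 0 0)) (add (tm3 (81) 0 1 0 1) (tm3 (54) 1 0 1 0)))
    (by decide +kernel) ![a, b, d, e, 0, 0]
  simp only [p6, PE.ev_add, ev_mul, ev_neg, ev_pow, ev_cst, ev_rS, ev_rN, ev_rM, ev_rf, ev_tm3, ev_v0, ev_v1, ev_v2,
    ev_v3] at h
  simp only [s6]
  push_cast at h
  linear_combination (1 / 27) * h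

open PE in
theorem m3T1 (a b d e : ℝ) : s6 (fun d e => jM a b d e * jS a b d e ^ 1) d e =
    6 * ((3 / 2) * jT a b * jH d e
      + (3 / 4) * jT a b * jH d e ^ 2
      + (3 / 2) * jH a b * jT d e
      + (3 / 4) * jH a b * jH d e ^ 2
      + (3 / 4) * jH a b ^ 2 * jT d e
      + (3 / 4) * jH a b ^ 2 * jH d e) := by
  have h := PE.sound 23 5
    (mul (cst 2) (p6 (fun d e => mul (rM v0 v1 d e) (pow (rS v0 v1 d e) 1)) v2 v3))
    (add (add (tm3 (486) 0 1 1 0) (add (tm3 (81) 0 1 2 0) (tm3 (486) 1 0 0 1))) (add (tm3 (27) 1 0 2 0) (add (tm3 (81) 2 0 0 1) (tm3 (27) 2 0 1 0))))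
    (by decide +kernel) ![a, b, d, e, 0, 0]
  simp only [p6, PE.ev_add, ev_mul, ev_neg, ev_pow, ev_cst, ev_rS, ev_rN, ev_rM, ev_rf, ev_tm3, ev_v0, ev_v1, ev_v2,
    ev_v3] at h
  simp only [s6]
  push_cast at h
  linear_combination (1 / 162) * h

open PE in
theorem m3T2 (a b d e : ℝ) : s6 (fun d e => jM a b d e * jS a b d e ^ 2) d e =
    6 * ((3 / 4) * jT a b * jH d e * jT d e
      + (3 / 4) * jT a b * jH d e ^ 2
      + (1 / 2) * jH a b * jH d e * jT d e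
      + (3 / 4) * jH a b * jT a b * jT d e
      + (1 / 2) * jH a b * jT a b * jH d e
      + (1 / 4) * jH a b * jT a b * jH d e * jT d e
      + (3 / 8) * jH a b * jT a b * jH d e ^ 2
      + (3 / 4) * jH a b ^ 2 * jT d e
      + (3 / 8) * jH a b ^ 2 * jH d e * jT d e
      + (3 / 2) * jH a b ^ 2 * jH d e ^ 2) := by
  have h := PE.sound 28 6
    (mul (cst 4) (p6 (fun d e => mul (rM v0 v1 d e) (pow (rS v0 v1 d e) 2)) v2 v3))
    (add (add (add (tm3 (1458) 0 1 1 1) (tm3 (486) 0 1 2 0)) (add (tm3 (324) 1 0 1 1) (add (tm3 (1458) 1 1 0 1) (tm3 (324) 1 1 1 0)))) (add (add (tm3 (162) 1 1 1 1) (tm3 (81) 1 1 2 0)) (add (tm3 (486) 2 0 0 1) (add (tm3 (81) 2 0 1 1) (tm3 (108) 2 0 2 0)))))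
    (by decide +kernel) ![a, b, d, e, 0, 0]
  simp only [p6, PE.ev_add, ev_mul, ev_neg, ev_pow, ev_cst, ev_rS, ev_rN, ev_rM, ev_rf, ev_tm3, ev_v0, ev_v1, ev_v2,
    ev_v3] at h
  simp only [s6]
  push_cast at h
  linear_combination (1 / 972) * h

open PE in
theorem m3T3 (a b d e : ℝ) : s6 (fun d e => jM a b d e * jS a b d e ^ 3) d e =
    6 * ((1 / 2) * jT a b * jT d e ^ 2
      + (1 / 2) * jT a b ^ 2 * jT d e
      + (1 / 8) * jT a b ^ 2 * jH d e ^ 3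
      + (3 / 2) * jH a b * jT a b * jH d e * jT d e
      + (9 / 8) * jH a b * jT a b * jH d e ^ 2
      + (9 / 16) * jH a b * jT a b * jH d e ^ 3
      + (9 / 8) * jH a b ^ 2 * jH d e * jT d e
      + (9 / 16) * jH a b ^ 2 * jH d e ^ 3
      + (1 / 8) * jH a b ^ 3 * jT d e ^ 2
      + (9 / 16) * jH a b ^ 3 * jH d e * jT d e
      + (9 / 16) * jH a b ^ 3 * jH d e ^ 2
      + (-1 / 16) * jH a b ^ 3 * jH d e ^ 3) := by
  have h := PE.sound 32 7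
    (mul (cst 8) (p6 (fun d e => mul (rM v0 v1 d e) (pow (rS v0 v1 d e) 3)) v2 v3))
    (add (add (add (tm3 (17496) 0 1 0 2) (add (tm3 (17496) 0 2 0 1) (tm3 (162) 0 2 3 0))) (add (tm3 (5832) 1 1 1 1) (add (tm3 (1458) 1 1 2 0) (tm3 (243) 1 1 3 0)))) (add (add (tm3 (1458) 2 0 1 1) (add (tm3 (81) 2 0 3 0) (tm3 (162) 3 0 0 2))) (add (tm3 (243) 3 0 1 1) (add (tm3 (81) 3 0 2 0) (tm3 (-3) 3 0 3 0)))))
    (by decide +kernel) ![a, b, d, e, 0, 0]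
  simp only [p6, PE.ev_add, ev_mul, ev_neg, ev_pow, ev_cst, ev_rS, ev_rN, ev_rM, ev_rf, ev_tm3, ev_v0, ev_v1, ev_v2,
    ev_v3] at h
  simp only [s6]
  push_cast at h
  linear_combination (1 / 5832) * h

open PE in
theorem m3T4 (a b d e : ℝ) : s6 (fun d e => jM a b d e * jS a b d e ^ 4) d e =
    6 * ((3 / 4) * jT a b ^ 2 * jH d e * jT d e
      + (3 / 8) * jT a b ^ 2 * jH d e ^ 2 * jT d e
      + (3 / 4) * jH a b * jT a b * jT d e ^ 2
      + (15 / 16) * jH a b * jT a b * jH d e ^ 2 * jT d e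
      + (9 / 16) * jH a b * jT a b * jH d e ^ 3
      + (3 / 8) * jH a b ^ 2 * jH d e ^ 2 * jT d e
      + (3 / 8) * jH a b ^ 2 * jT a b * jT d e ^ 2
      + (15 / 16) * jH a b ^ 2 * jT a b * jH d e * jT d e
      + (3 / 8) * jH a b ^ 2 * jT a b * jH d e ^ 2
      + (3 / 16) * jH a b ^ 2 * jT a b * jH d e ^ 2 * jT d e
      + (9 / 32) * jH a b ^ 2 * jT a b * jH d e ^ 3
      + (9 / 16) * jH a b ^ 3 * jH d e * jT d e
      + (9 / 32) * jH a b ^ 3 * jH d e ^ 2 * jT d e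
      + (9 / 8) * jH a b ^ 3 * jH d e ^ 3) := by
  have h := PE.sound 37 8
    (mul (cst 16) (p6 (fun d e => mul (rM v0 v1 d e) (pow (rS v0 v1 d e) 4)) v2 v3))
    (add (add (add (tm3 (52488) 0 2 1 1) (add (tm3 (8748) 0 2 2 1) (tm3 (52488) 1 1 0 2))) (add (add (tm3 (7290) 1 1 2 1) (tm3 (1458) 1 1 3 0)) (add (tm3 (972) 2 0 2 1) (tm3 (8748) 2 1 0 2)))) (add (add (tm3 (7290) 2 1 1 1) (add (tm3 (972) 2 1 2 0) (tm3 (486) 2 1 2 1))) (add (add (tm3 (243) 2 1 3 0) (tm3 (1458) 3 0 1 1)) (add (tm3 (243) 3 0 2 1) (tm3 (324) 3 0 3 0)))))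
    (by decide +kernel) ![a, b, d, e, 0, 0]
  simp only [p6, PE.ev_add, ev_mul, ev_neg, ev_pow, ev_cst, ev_rS, ev_rN, ev_rM, ev_rf, ev_tm3, ev_v0, ev_v1, ev_v2,
    ev_v3] at h
  simp only [s6]
  push_cast at h
  linear_combination (1 / 34992) * h

open PE in
theorem m3T5 (a b d e : ℝ) : s6 (fun d e => jM a b d e * jS a b d e ^ 5) d e =
    6 * ((3 / 4) * jT a b ^ 2 * jH d e * jT d e ^ 2
      + (3 / 8) * jT a b ^ 2 * jH d e ^ 2 * jT d e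
      + (-3 / 16) * jT a b ^ 2 * jH d e ^ 4
      + (5 / 8) * jH a b * jT a b * jH d e * jT d e ^ 2
      + (3 / 4) * jH a b * jT a b ^ 2 * jT d e ^ 2
      + (5 / 8) * jH a b * jT a b ^ 2 * jH d e * jT d e
      + (3 / 16) * jH a b * jT a b ^ 2 * jH d e ^ 2 * jT d e
      + (-3 / 16) * jH a b * jT a b ^ 2 * jH d e ^ 3
      + (5 / 32) * jH a b * jT a b ^ 2 * jH d e ^ 4
      + (3 / 8) * jH a b ^ 2 * jT a b * jT d e ^ 2
      + (3 / 16) * jH a b ^ 2 * jT a b * jH d e * jT d e ^ 2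
      + (15 / 8) * jH a b ^ 2 * jT a b * jH d e ^ 2 * jT d e
      + (27 / 32) * jH a b ^ 2 * jT a b * jH d e ^ 3
      + (27 / 64) * jH a b ^ 2 * jT a b * jH d e ^ 4
      + (-3 / 16) * jH a b ^ 3 * jH d e * jT d e ^ 2
      + (27 / 32) * jH a b ^ 3 * jH d e ^ 2 * jT d e
      + (33 / 64) * jH a b ^ 3 * jH d e ^ 4
      + (-3 / 16) * jH a b ^ 4 * jT d e ^ 2
      + (5 / 32) * jH a b ^ 4 * jH d e * jT d e ^ 2
      + (27 / 64) * jH a b ^ 4 * jH d e ^ 2 * jT d e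
      + (33 / 64) * jH a b ^ 4 * jH d e ^ 3
      + (-5 / 64) * jH a b ^ 4 * jH d e ^ 4) := by
  have h := PE.sound 41 9
    (mul (cst 32) (p6 (fun d e => mul (rM v0 v1 d e) (pow (rS v0 v1 d e) 5)) v2 v3))
    (add (add (add (add (tm3 (314928) 0 2 1 2) (tm3 (52488) 0 2 2 1)) (add (tm3 (-2916) 0 2 4 0) (add (tm3 (87480) 1 1 1 2) (tm3 (314928) 1 2 0 2)))) (add (add (tm3 (87480) 1 2 1 1) (add (tm3 (8748) 1 2 2 1) (tm3 (-2916) 1 2 3 0))) (add (tm3 (810) 1 2 4 0) (add (tm3 (52488) 2 1 0 2) (tm3 (8748) 2 1 1 2))))) (add (add (add (tm3 (29160) 2 1 2 1) (tm3 (4374) 2 1 3 0)) (add (tm3 (729) 2 1 4 0) (add (tm3 (-2916) 3 0 1 2) (tm3 (4374) 3 0 2 1)))) (add (add (tm3 (297) 3 0 4 0) (add (tm3 (-2916) 4 0 0 2) (tm3 (810) 4 0 1 2))) (add (tm3 (729) 4 0 2 1) (add (tm3 (297) 4 0 3 0) (tm3 (-15) 4 0 4 0))))))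
    (by decide +kernel) ![a, b, d, e, 0, 0]
  simp only [p6, PE.ev_add, ev_mul, ev_neg, ev_pow, ev_cst, ev_rS, ev_rN, ev_rM, ev_rf, ev_tm3, ev_v0, ev_v1, ev_v2,
    ev_v3] at h
  simp only [s6]
  push_cast at h
  linear_combination (1 / 209952) * h

open PE in
theorem m3NN0 (a b d e : ℝ) : s6 (fun d e => jN a b d e ^ 2 * jS a b d e ^ 0) d e =
    6 * ((1) * jH d e ^ 2
      + (4) * jT a b * jT d e
      + (4) * jT a b * jH d e
      + (4) * jH a b * jT d e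
      + (4) * jH a b * jH d e
      + (2) * jH a b * jH d e ^ 2
      + (1) * jH a b ^ 2
      + (2) * jH a b ^ 2 * jH d e
      + (1 / 4) * jH a b ^ 2 * jH d e ^ 2) := by
  have h := PE.sound 28 5
    (mul (cst 2) (p6 (fun d e => mul (pow (rN v0 v1 d e) 2) (pow (rS v0 v1 d e) 0)) v2 v3))
    (add (add (add (tm3 (972) 0 0 2 0) (tm3 (34992) 0 1 0 1)) (add (tm3 (11664) 0 1 1 0) (tm3 (11664) 1 0 0 1))) (add (add (tm3 (3888) 1 0 1 0) (tm3 (648) 1 0 2 0)) (add (tm3 (972) 2 0 0 0) (add (tm3 (648) 2 0 1 0) (tm3 (27) 2 0 2 0)))))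
    (by decide +kernel) ![a, b, d, e, 0, 0]
  simp only [p6, PE.ev_add, ev_mul, ev_neg, ev_pow, ev_cst, ev_rS, ev_rN, ev_rM, ev_rf, ev_tm3, ev_v0, ev_v1, ev_v2,
    ev_v3] at h
  simp only [s6]
  push_cast at h
  linear_combination (1 / 1458) * h

open PE in
theorem m3NN1 (a b d e : ℝ) : s6 (fun d e => jN a b d e ^ 2 * jS a b d e ^ 1) d e =
    6 * ((2) * jT a b * jT d e
      + (1) * jT a b * jH d e * jT d e
      + (4) * jT a b * jH d e ^ 2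
      + (2) * jH a b * jH d e * jT d e
      + (2) * jH a b * jH d e ^ 2
      + (1) * jH a b * jT a b * jT d e
      + (2) * jH a b * jT a b * jH d e
      + (1) * jH a b * jT a b * jH d e ^ 2
      + (4) * jH a b ^ 2 * jT d e
      + (2) * jH a b ^ 2 * jH d e
      + (1) * jH a b ^ 2 * jH d e * jT d e
      + (2) * jH a b ^ 2 * jH d e ^ 2) := by
  have h := PE.sound 31 6
    (mul (cst 1) (p6 (fun d e => mul (pow (rN v0 v1 d e) 2) (pow (rS v0 v1 d e) 1)) v2 v3))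
    (add (add (add (tm3 (26244) 0 1 0 1) (add (tm3 (4374) 0 1 1 1) (tm3 (5832) 0 1 2 0))) (add (tm3 (2916) 1 0 1 1) (add (tm3 (972) 1 0 2 0) (tm3 (4374) 1 1 0 1)))) (add (add (tm3 (2916) 1 1 1 0) (add (tm3 (486) 1 1 2 0) (tm3 (5832) 2 0 0 1))) (add (tm3 (972) 2 0 1 0) (add (tm3 (486) 2 0 1 1) (tm3 (324) 2 0 2 0)))))
    (by decide +kernel) ![a, b, d, e, 0, 0]
  simp only [p6, PE.ev_add, ev_mul, ev_neg, ev_pow, ev_cst, ev_rS, ev_rN, ev_rM, ev_rf, ev_tm3, ev_v0, ev_v1, ev_v2,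
    ev_v3] at h
  simp only [s6]
  push_cast at h
  linear_combination (1 / 2187) * h

open PE in
theorem m3NN2 (a b d e : ℝ) : s6 (fun d e => jN a b d e ^ 2 * jS a b d e ^ 2) d e =
    6 * ((2) * jT a b * jH d e * jT d e
      + (1) * jT a b * jH d e ^ 3
      + (1) * jT a b ^ 2 * jH d e ^ 2
      + (1 / 2) * jH a b * jH d e ^ 3
      + (2) * jH a b * jT a b * jT d e
      + (4) * jH a b * jT a b * jH d e * jT d e
      + (4) * jH a b * jT a b * jH d e ^ 2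
      + (1 / 2) * jH a b * jT a b * jH d e ^ 3
      + (1) * jH a b ^ 2 * jT d e ^ 2
      + (4) * jH a b ^ 2 * jH d e * jT d e
      + (5 / 2) * jH a b ^ 2 * jH d e ^ 2
      + (3 / 4) * jH a b ^ 2 * jH d e ^ 3
      + (1) * jH a b ^ 3 * jT d e
      + (1 / 2) * jH a b ^ 3 * jH d e
      + (1 / 2) * jH a b ^ 3 * jH d e * jT d e
      + (3 / 4) * jH a b ^ 3 * jH d e ^ 2
      + (1 / 8) * jH a b ^ 3 * jH d e ^ 3) := by
  have h := PE.sound 36 7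
    (mul (cst 4) (p6 (fun d e => mul (pow (rN v0 v1 d e) 2) (pow (rS v0 v1 d e) 2)) v2 v3))
    (add (add (add (add (tm3 (104976) 0 1 1 1) (tm3 (5832) 0 1 3 0)) (add (tm3 (17496) 0 2 2 0) (tm3 (972) 1 0 3 0))) (add (add (tm3 (104976) 1 1 0 1) (tm3 (69984) 1 1 1 1)) (add (tm3 (23328) 1 1 2 0) (tm3 (972) 1 1 3 0)))) (add (add (add (tm3 (17496) 2 0 0 2) (tm3 (23328) 2 0 1 1)) (add (tm3 (4860) 2 0 2 0) (tm3 (486) 2 0 3 0))) (add (add (tm3 (5832) 3 0 0 1) (tm3 (972) 3 0 1 0)) (add (tm3 (972) 3 0 1 1) (add (tm3 (486) 3 0 2 0) (tm3 (27) 3 0 3 0))))))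
    (by decide +kernel) ![a, b, d, e, 0, 0]
  simp only [p6, PE.ev_add, ev_mul, ev_neg, ev_pow, ev_cst, ev_rS, ev_rN, ev_rM, ev_rf, ev_tm3, ev_v0, ev_v1, ev_v2,
    ev_v3] at h
  simp only [s6]
  push_cast at h
  linear_combination (1 / 26244) * h

open PE in
theorem m3NN3 (a b d e : ℝ) : s6 (fun d e => jN a b d e ^ 2 * jS a b d e ^ 3) d e =
    6 * ((1 / 2) * jT a b * jH d e ^ 2 * jT d e
      + (2) * jT a b ^ 2 * jH d e * jT d e
      + (1) * jT a b ^ 2 * jH d e ^ 3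
      + (2) * jH a b * jT a b * jT d e ^ 2
      + (7 / 2) * jH a b * jT a b * jH d e * jT d e
      + (7 / 4) * jH a b * jT a b * jH d e ^ 2 * jT d e
      + (3) * jH a b * jT a b * jH d e ^ 3
      + (3 / 2) * jH a b ^ 2 * jH d e ^ 2 * jT d e
      + (3 / 2) * jH a b ^ 2 * jH d e ^ 3
      + (1 / 2) * jH a b ^ 2 * jT a b * jT d e
      + (7 / 4) * jH a b ^ 2 * jT a b * jH d e * jT d e
      + (3 / 2) * jH a b ^ 2 * jT a b * jH d e ^ 2
      + (1 / 8) * jH a b ^ 2 * jT a b * jH d e ^ 2 * jT d e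
      + (3 / 4) * jH a b ^ 2 * jT a b * jH d e ^ 3
      + (1) * jH a b ^ 3 * jT d e ^ 2
      + (3) * jH a b ^ 3 * jH d e * jT d e
      + (3 / 2) * jH a b ^ 3 * jH d e ^ 2
      + (3 / 4) * jH a b ^ 3 * jH d e ^ 2 * jT d e
      + (1) * jH a b ^ 3 * jH d e ^ 3) := by
  have h := PE.sound 40 8
    (mul (cst 4) (p6 (fun d e => mul (pow (rN v0 v1 d e) 2) (pow (rS v0 v1 d e) 3)) v2 v3))
    (add (add (add (add (tm3 (26244) 0 1 2 1) (tm3 (314928) 0 2 1 1)) (add (tm3 (17496) 0 2 3 0) (tm3 (314928) 1 1 0 2))) (add (add (tm3 (183708) 1 1 1 1) (tm3 (30618) 1 1 2 1)) (add (tm3 (17496) 1 1 3 0) (add (tm3 (8748) 2 0 2 1) (tm3 (2916) 2 0 3 0))))) (add (add (add (tm3 (26244) 2 1 0 1) (tm3 (30618) 2 1 1 1)) (add (tm3 (8748) 2 1 2 0) (add (tm3 (729) 2 1 2 1) (tm3 (1458) 2 1 3 0)))) (add (add (tm3 (17496) 3 0 0 2) (tm3 (17496) 3 0 1 1)) (add (tm3 (2916) 3 0 2 0) (add (tm3 (1458) 3 0 2 1)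 (tm3 (648) 3 0 3 0))))))
    (by decide +kernel) ![a, b, d, e, 0, 0]
  simp only [p6, PE.ev_add, ev_mul, ev_neg, ev_pow, ev_cst, ev_rS, ev_rN, ev_rM, ev_rf, ev_tm3, ev_v0, ev_v1, ev_v2,
    ev_v3] at h
  simp only [s6]
  push_cast at h
  linear_combination (1 / 78732) * h

open PE in
theorem m3NN4 (a b d e : ℝ) : s6 (fun d e => jN a b d e ^ 2 * jS a b d e ^ 4) d e =
    6 * ((2) * jT a b ^ 2 * jT d e ^ 2
      + (2) * jT a b ^ 2 * jH d e ^ 2 * jT d e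
      + (-1 / 2) * jT a b ^ 2 * jH d e ^ 3
      + (1 / 4) * jT a b ^ 2 * jH d e ^ 4
      + (1) * jH a b * jT a b * jH d e * jT d e ^ 2
      + (5 / 2) * jH a b * jT a b * jH d e ^ 2 * jT d e
      + (3 / 4) * jH a b * jT a b * jH d e ^ 4
      + (1) * jH a b * jT a b ^ 2 * jH d e * jT d e
      + (1 / 2) * jH a b * jT a b ^ 2 * jH d e ^ 2 * jT d e
      + (1) * jH a b * jT a b ^ 2 * jH d e ^ 3
      + (3 / 8) * jH a b ^ 2 * jH d e ^ 4
      + (2) * jH a b ^ 2 * jT a b * jT d e ^ 2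
      + (5 / 2) * jH a b ^ 2 * jT a b * jH d e * jT d e
      + (1 / 2) * jH a b ^ 2 * jT a b * jH d e * jT d e ^ 2
      + (4) * jH a b ^ 2 * jT a b * jH d e ^ 2 * jT d e
      + (3) * jH a b ^ 2 * jT a b * jH d e ^ 3
      + (3 / 8) * jH a b ^ 2 * jT a b * jH d e ^ 4
      + (-1 / 2) * jH a b ^ 3 * jT d e ^ 2
      + (1) * jH a b ^ 3 * jH d e * jT d e ^ 2
      + (3) * jH a b ^ 3 * jH d e ^ 2 * jT d e
      + (17 / 8) * jH a b ^ 3 * jH d e ^ 3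
      + (7 / 16) * jH a b ^ 3 * jH d e ^ 4
      + (1 / 4) * jH a b ^ 4 * jT d e ^ 2
      + (3 / 4) * jH a b ^ 4 * jH d e * jT d e
      + (3 / 8) * jH a b ^ 4 * jH d e ^ 2
      + (3 / 8) * jH a b ^ 4 * jH d e ^ 2 * jT d e
      + (7 / 16) * jH a b ^ 4 * jH d e ^ 3
      + (3 / 32) * jH a b ^ 4 * jH d e ^ 4) := by
  have h := PE.sound 46 9
    (mul (cst 16) (p6 (fun d e => mul (pow (rN v0 v1 d e) 2) (pow (rS v0 v1 d e) 4)) v2 v3))
    (add (add (add (add (tm3 (11337408) 0 2 0 2) (add (tm3 (1259712) 0 2 2 1) (tm3 (-104976) 0 2 3 0))) (add (add (tm3 (17496) 0 2 4 0) (tm3 (629856) 1 1 1 2)) (add (tm3 (524880) 1 1 2 1) (tm3 (17496) 1 1 4 0)))) (add (add (tm3 (629856) 1 2 1 1) (add (tm3 (104976) 1 2 2 1) (tm3 (69984) 1 2 3 0))) (add (add (tm3 (2916) 2 0 4 0) (tm3 (1259712) 2 1 0 2)) (add (tm3 (524880) 2 1 1 1) (tm3 (104976) 2 1 1 2))))) (add (add (add (tm3 (279936) 2 1 2 1)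 (add (tm3 (69984) 2 1 3 0) (tm3 (2916) 2 1 4 0))) (add (add (tm3 (-104976) 3 0 0 2) (tm3 (69984) 3 0 1 2)) (add (tm3 (69984) 3 0 2 1) (tm3 (16524) 3 0 3 0)))) (add (add (tm3 (1134) 3 0 4 0) (add (tm3 (17496) 4 0 0 2) (tm3 (17496) 4 0 1 1))) (add (add (tm3 (2916) 4 0 2 0) (tm3 (2916) 4 0 2 1)) (add (tm3 (1134) 4 0 3 0) (tm3 (81) 4 0 4 0))))))
    (by decide +kernel) ![a, b, d, e, 0, 0]
  simp only [p6, PE.ev_add, ev_mul, ev_neg, ev_pow, ev_cst, ev_rS, ev_rN, ev_rM, ev_rf, ev_tm3, ev_v0, ev_v1, ev_v2,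
    ev_v3] at h
  simp only [s6]
  push_cast at h
  linear_combination (1 / 944784) * h

end Crest.Agent.R163
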