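import Crest.Agent.R163.KronDef

/-! R163: moments over the symmetric group (generated). -/

set_option autoImplicit false
set_option linter.unusedVariables false
set_option Elab.async false
set_option linter.unusedSimpArgs false

namespace Crest.Agent.R163

open PE in
theorem m4O2 (a b c d e f : ℝ) : s24 (fun d e f => 1 * kS a b c d e f ^ 2) d e f =
    24 * ((1 / 3) * iH a b c * iH d e f) := by
  have h := PE.sound 9 3
    (mul (cst 1) (p24 (fun d e f => mul (cst 1) (pow (pS v0 v1 v2 d e f) 2)) v3 v4 v5))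
    (tm (8) 1 0 0 1 0 0)
    (by decide +kernel) ![a, b, c, d, e, f]
  simp only [p24, p4, PE.ev_add, ev_mul, ev_neg, ev_pow, ev_cst, ev_pS, ev_qN, ev_qT, ev_qP, ev_tm, ev_v0, ev_v1, ev_v2,
    ev_v3, ev_v4, ev_v5] at h
  simp only [s24, s4]
  push_cast at h
  linear_combination (1 / 1) * h

open PE in
theorem m4O3 (a b c d e f : ℝ) : s24 (fun d e f => 1 * kS a b c d e f ^ 3) d e f =
    24 * ((1 / 6) * iT a b c * iT d e f) := by
  have h := PE.sound 10 4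
    (mul (cst 1) (p24 (fun d e f => mul (cst 1) (pow (pS v0 v1 v2 d e f) 3)) v3 v4 v5))
    (tm (4) 0 1 0 0 1 0)
    (by decide +kernel) ![a, b, c, d, e, f]
  simp only [p24, p4, PE.ev_add, ev_mul, ev_neg, ev_pow, ev_cst, ev_pS, ev_qN, ev_qT, ev_qP, ev_tm, ev_v0, ev_v1, ev_v2,
    ev_v3, ev_v4, ev_v5] at h
  simp only [s24, s4]
  push_cast at h
  linear_combination (1 / 1) * h

open PE in
theorem m4O4 (a b c d e f : ℝ) : s24 (fun d e f => 1 * kS a b c d e f ^ 4) d e f =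
    24 * ((10 / 3) * iP a b c * iP d e f
      + (-2 / 3) * iP a b c * iH d e f ^ 2
      + (-2 / 3) * iH a b c ^ 2 * iP d e f
      + (1 / 3) * iH a b c ^ 2 * iH d e f ^ 2) := by
  have h := PE.sound 13 5
    (mul (cst 1) (p24 (fun d e f => mul (cst 1) (pow (pS v0 v1 v2 d e f) 4)) v3 v4 v5))
    (add (add (tm (80) 0 0 1 0 0 1) (tm (-16) 0 0 1 2 0 0)) (add (tm (-16) 2 0 0 0 0 1) (tm (8) 2 0 0 2 0 0)))
    (by decide +kernel) ![a, b, c, d, e, f]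
  simp only [p24, p4, PE.ev_add, ev_mul, ev_neg, ev_pow, ev_cst, ev_pS, ev_qN, ev_qT, ev_qP, ev_tm, ev_v0, ev_v1, ev_v2,
    ev_v3, ev_v4, ev_v5] at h
  simp only [s24, s4]
  push_cast at h
  linear_combination (1 / 1) * h

open PE in
theorem m4O5 (a b c d e f : ℝ) : s24 (fun d e f => 1 * kS a b c d e f ^ 5) d e f =
    24 * ((5 / 27) * iH a b c * iT a b c * iH d e f * iT d e f) := by
  have h := PE.sound 16 6
    (mul (cst 9) (p24 (fun d e f => mul (cst 1) (pow (pS v0 v1 v2 d e f) 5)) v3 v4 v5))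
    (tm (40) 1 1 0 1 1 0)
    (by decide +kernel) ![a, b, c, d, e, f]
  simp only [p24, p4, PE.ev_add, ev_mul, ev_neg, ev_pow, ev_cst, ev_pS, ev_qN, ev_qT, ev_qP, ev_tm, ev_v0, ev_v1, ev_v2,
    ev_v3, ev_v4, ev_v5] at h
  simp only [s24, s4]
  push_cast at h
  linear_combination (1 / 9) * h

open PE in
theorem m4O6 (a b c d e f : ℝ) : s24 (fun d e f => 1 * kS a b c d e f ^ 6) d e f =
    24 * ((77 / 864) * iT a b c ^ 2 * iT d e f ^ 2
      + (-7 / 24) * iT a b c ^ 2 * iH d e f * iP d e f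
      + (1 / 36) * iT a b c ^ 2 * iH d e f ^ 3
      + (-7 / 24) * iH a b c * iP a b c * iT d e f ^ 2
      + (11 / 2) * iH a b c * iP a b c * iH d e f * iP d e f
      + (-1) * iH a b c * iP a b c * iH d e f ^ 3
      + (1 / 36) * iH a b c ^ 3 * iT d e f ^ 2
      + (-1) * iH a b c ^ 3 * iH d e f * iP d e f
      + (1 / 3) * iH a b c ^ 3 * iH d e f ^ 3) := by
  have h := PE.sound 21 7
    (mul (cst 36) (p24 (fun d e f => mul (cst 1) (pow (pS v0 v1 v2 d e f) 6)) v3 v4 v5))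
    (add (add (add (tm (77) 0 2 0 0 2 0) (tm (-252) 0 2 0 1 0 1)) (add (tm (24) 0 2 0 3 0 0) (tm (-252) 1 0 1 0 2 0))) (add (add (tm (4752) 1 0 1 1 0 1) (tm (-864) 1 0 1 3 0 0)) (add (tm (24) 3 0 0 0 2 0) (add (tm (-864) 3 0 0 1 0 1) (tm (288) 3 0 0 3 0 0)))))
    (by decide +kernel) ![a, b, c, d, e, f]
  simp only [p24, p4, PE.ev_add, ev_mul, ev_neg, ev_pow, ev_cst, ev_pS, ev_qN, ev_qT, ev_qP, ev_tm, ev_v0, ev_v1, ev_v2,
    ev_v3, ev_v4, ev_v5] at h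
  simp only [s24, s4]
  push_cast at h
  linear_combination (1 / 36) * h

open PE in
theorem m4O7 (a b c d e f : ℝ) : s24 (fun d e f => 1 * kS a b c d e f ^ 7) d e f =
    24 * ((77 / 27) * iT a b c * iP a b c * iT d e f * iP d e f
      + (-7 / 9) * iT a b c * iP a b c * iH d e f ^ 2 * iT d e f
      + (-7 / 9) * iH a b c ^ 2 * iT a b c * iT d e f * iP d e f
      + (7 / 18) * iH a b c ^ 2 * iT a b c * iH d e f ^ 2 * iT d e f) := by
  have h := PE.sound 21 8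
    (mul (cst 9) (p24 (fun d e f => mul (cst 1) (pow (pS v0 v1 v2 d e f) 7)) v3 v4 v5))
    (add (add (tm (616) 0 1 1 0 1 1) (tm (-168) 0 1 1 2 1 0)) (add (tm (-168) 2 1 0 0 1 1) (tm (84) 2 1 0 2 1 0)))
    (by decide +kernel) ![a, b, c, d, e, f]
  simp only [p24, p4, PE.ev_add, ev_mul, ev_neg, ev_pow, ev_cst, ev_pS, ev_qN, ev_qT, ev_qP, ev_tm, ev_v0, ev_v1, ev_v2,
    ev_v3, ev_v4, ev_v5] at h
  simp only [s24, s4]
  push_cast at h
  linear_combination (1 / 9) * h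

open PE in
theorem m4O8 (a b c d e f : ℝ) : s24 (fun d e f => 1 * kS a b c d e f ^ 8) d e f =
    24 * ((130 / 3) * iP a b c ^ 2 * iP d e f ^ 2
      + (-26 / 27) * iP a b c ^ 2 * iH d e f * iT d e f ^ 2
      + (-12) * iP a b c ^ 2 * iH d e f ^ 2 * iP d e f
      + (2 / 3) * iP a b c ^ 2 * iH d e f ^ 4
      + (-26 / 27) * iH a b c * iT a b c ^ 2 * iP d e f ^ 2
      + (365 / 1944) * iH a b c * iT a b c ^ 2 * iH d e f * iT d e f ^ 2
      + (-5 / 18) * iH a b c * iT a b c ^ 2 * iH d e f ^ 2 * iP d e f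
      + (1 / 27) * iH a b c * iT a b c ^ 2 * iH d e f ^ 4
      + (-12) * iH a b c ^ 2 * iP a b c * iP d e f ^ 2
      + (-5 / 18) * iH a b c ^ 2 * iP a b c * iH d e f * iT d e f ^ 2
      + (10) * iH a b c ^ 2 * iP a b c * iH d e f ^ 2 * iP d e f
      + (-4 / 3) * iH a b c ^ 2 * iP a b c * iH d e f ^ 4
      + (2 / 3) * iH a b c ^ 4 * iP d e f ^ 2
      + (1 / 27) * iH a b c ^ 4 * iH d e f * iT d e f ^ 2
      + (-4 / 3) * iH a b c ^ 4 * iH d e f ^ 2 * iP d e f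
      + (1 / 3) * iH a b c ^ 4 * iH d e f ^ 4) := by
  have h := PE.sound 27 9
    (mul (cst 81) (p24 (fun d e f => mul (cst 1) (pow (pS v0 v1 v2 d e f) 8)) v3 v4 v5))
    (add (add (add (add (tm (84240) 0 0 2 0 0 2) (tm (-1872) 0 0 2 1 2 0)) (add (tm (-23328) 0 0 2 2 0 1) (tm (1296) 0 0 2 4 0 0))) (add (add (tm (-1872) 1 2 0 0 0 2) (tm (365) 1 2 0 1 2 0)) (add (tm (-540) 1 2 0 2 0 1) (tm (72) 1 2 0 4 0 0)))) (add (add (add (tm (-23328) 2 0 1 0 0 2) (tm (-540) 2 0 1 1 2 0)) (add (tm (19440) 2 0 1 2 0 1) (tm (-2592) 2 0 1 4 0 0))) (add (add (tm (1296) 4 0 0 0 0 2) (tm (72) 4 0 0 1 2 0)) (add (tm (-2592) 4 0 0 2 0 1) (tm (648) 4 0 0 4 0 0)))))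
    (by decide +kernel) ![a, b, c, d, e, f]
  simp only [p24, p4, PE.ev_add, ev_mul, ev_neg, ev_pow, ev_cst, ev_pS, ev_qN, ev_qT, ev_qP, ev_tm, ev_v0, ev_v1, ev_v2,
    ev_v3, ev_v4, ev_v5] at h
  simp only [s24, s4]
  push_cast at h
  linear_combination (1 / 81) * h

open PE in
theorem m4N0 (a b c d e f : ℝ) : s24 (fun d e f => kN a b c d e f * kS a b c d e f ^ 0) d e f =
    24 * ((1) * iH d e f
      + (1) * iH a b c
      + (2 / 3) * iH a b c * iH d e f) := by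
  have h := PE.sound 11 3
    (mul (cst 1) (p24 (fun d e f => mul (qN v0 v1 v2 d e f) (pow (pS v0 v1 v2 d e f) 0)) v3 v4 v5))
    (add (tm (24) 0 0 0 1 0 0) (add (tm (24) 1 0 0 0 0 0) (tm (16) 1 0 0 1 0 0)))
    (by decide +kernel) ![a, b, c, d, e, f]
  simp only [p24, p4, PE.ev_add, ev_mul, ev_neg, ev_pow, ev_cst, ev_pS, ev_qN, ev_qT, ev_qP, ev_tm, ev_v0, ev_v1, ev_v2,
    ev_v3, ev_v4, ev_v5] at h
  simp only [s24, s4]
  push_cast at h
  linear_combination (1 / 1) * h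

open PE in
theorem m4N1 (a b c d e f : ℝ) : s24 (fun d e f => kN a b c d e f * kS a b c d e f ^ 1) d e f =
    24 * ((1 / 6) * iT a b c * iT d e f
      + (2 / 3) * iT a b c * iH d e f
      + (2 / 3) * iH a b c * iT d e f
      + (2 / 3) * iH a b c * iH d e f) := by
  have h := PE.sound 13 4
    (mul (cst 1) (p24 (fun d e f => mul (qN v0 v1 v2 d e f) (pow (pS v0 v1 v2 d e f) 1)) v3 v4 v5))
    (add (add (tm (4) 0 1 0 0 1 0) (tm (16) 0 1 0 1 0 0)) (add (tm (16) 1 0 0 0 1 0) (tm (16) 1 0 0 1 0 0)))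
    (by decide +kernel) ![a, b, c, d, e, f]
  simp only [p24, p4, PE.ev_add, ev_mul, ev_neg, ev_pow, ev_cst, ev_pS, ev_qN, ev_qT, ev_qP, ev_tm, ev_v0, ev_v1, ev_v2,
    ev_v3, ev_v4, ev_v5] at h
  simp only [s24, s4]
  push_cast at h
  linear_combination (1 / 1) * h

open PE in
theorem m4N2 (a b c d e f : ℝ) : s24 (fun d e f => kN a b c d e f * kS a b c d e f ^ 2) d e f =
    24 * ((-2 / 3) * iP a b c * iP d e f
      + (4 / 3) * iP a b c * iT d e f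
      + (2 / 3) * iP a b c * iH d e f ^ 2
      + (4 / 3) * iT a b c * iP d e f
      + (1 / 3) * iT a b c * iT d e f
      + (1 / 3) * iH a b c * iH d e f ^ 2
      + (2 / 3) * iH a b c ^ 2 * iP d e f
      + (1 / 3) * iH a b c ^ 2 * iH d e f) := by
  have h := PE.sound 14 5
    (mul (cst 1) (p24 (fun d e f => mul (qN v0 v1 v2 d e f) (pow (pS v0 v1 v2 d e f) 2)) v3 v4 v5))
    (add (add (add (tm (-16) 0 0 1 0 0 1) (tm (32) 0 0 1 0 1 0)) (add (tm (16) 0 0 1 2 0 0) (tm (32) 0 1 0 0 0 1))) (add (add (tm (8) 0 1 0 0 1 0) (tm (8) 1 0 0 2 0 0)) (add (tm (16) 2 0 0 0 0 1) (tm (8) 2 0 0 1 0 0))))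
    (by decide +kernel) ![a, b, c, d, e, f]
  simp only [p24, p4, PE.ev_add, ev_mul, ev_neg, ev_pow, ev_cst, ev_pS, ev_qN, ev_qT, ev_qP, ev_tm, ev_v0, ev_v1, ev_v2,
    ev_v3, ev_v4, ev_v5] at h
  simp only [s24, s4]
  push_cast at h
  linear_combination (1 / 1) * h

open PE in
theorem m4N3 (a b c d e f : ℝ) : s24 (fun d e f => kN a b c d e f * kS a b c d e f ^ 3) d e f =
    24 * ((20 / 3) * iP a b c * iP d e f
      + (8 / 9) * iP a b c * iH d e f * iT d e f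
      + (-4 / 3) * iP a b c * iH d e f ^ 2
      + (1 / 6) * iT a b c * iH d e f * iT d e f
      + (8 / 9) * iH a b c * iT a b c * iP d e f
      + (1 / 6) * iH a b c * iT a b c * iT d e f
      + (13 / 54) * iH a b c * iT a b c * iH d e f * iT d e f
      + (2 / 9) * iH a b c * iT a b c * iH d e f ^ 2
      + (-4 / 3) * iH a b c ^ 2 * iP d e f
      + (2 / 9) * iH a b c ^ 2 * iH d e f * iT d e f
      + (2 / 3) * iH a b c ^ 2 * iH d e f ^ 2) := by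
  have h := PE.sound 19 6
    (mul (cst 9) (p24 (fun d e f => mul (qN v0 v1 v2 d e f) (pow (pS v0 v1 v2 d e f) 3)) v3 v4 v5))
    (add (add (add (tm (1440) 0 0 1 0 0 1) (tm (192) 0 0 1 1 1 0)) (add (tm (-288) 0 0 1 2 0 0) (add (tm (36) 0 1 0 1 1 0) (tm (192) 1 1 0 0 0 1)))) (add (add (tm (36) 1 1 0 0 1 0) (add (tm (52) 1 1 0 1 1 0) (tm (48) 1 1 0 2 0 0))) (add (tm (-288) 2 0 0 0 0 1) (add (tm (48) 2 0 0 1 1 0) (tm (144) 2 0 0 2 0 0)))))
    (by decide +kernel) ![a, b, c, d, e, f]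
  simp only [p24, p4, PE.ev_add, ev_mul, ev_neg, ev_pow, ev_cst, ev_pS, ev_qN, ev_qT, ev_qP, ev_tm, ev_v0, ev_v1, ev_v2,
    ev_v3, ev_v4, ev_v5] at h
  simp only [s24, s4]
  push_cast at h
  linear_combination (1 / 9) * h

open PE in
theorem m4N4 (a b c d e f : ℝ) : s24 (fun d e f => kN a b c d e f * kS a b c d e f ^ 4) d e f =
    24 * ((10 / 3) * iP a b c * iH d e f * iP d e f
      + (-2 / 3) * iP a b c * iH d e f ^ 3
      + (35 / 864) * iT a b c ^ 2 * iT d e f ^ 2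
      + (5 / 72) * iT a b c ^ 2 * iH d e f * iP d e f
      + (4 / 27) * iT a b c ^ 2 * iH d e f * iT d e f
      + (-1 / 36) * iT a b c ^ 2 * iH d e f ^ 3
      + (10 / 3) * iH a b c * iP a b c * iP d e f
      + (5 / 72) * iH a b c * iP a b c * iT d e f ^ 2
      + (1 / 2) * iH a b c * iP a b c * iH d e f * iP d e f
      + (8 / 9) * iH a b c * iP a b c * iH d e f * iT d e f
      + (-2 / 3) * iH a b c * iP a b c * iH d e f ^ 2
      + (1 / 3) * iH a b c * iP a b c * iH d e f ^ 3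
      + (4 / 27) * iH a b c * iT a b c * iT d e f ^ 2
      + (8 / 9) * iH a b c * iT a b c * iH d e f * iP d e f
      + (10 / 27) * iH a b c * iT a b c * iH d e f * iT d e f
      + (-2 / 3) * iH a b c ^ 2 * iH d e f * iP d e f
      + (1 / 3) * iH a b c ^ 2 * iH d e f ^ 3
      + (-2 / 3) * iH a b c ^ 3 * iP d e f
      + (-1 / 36) * iH a b c ^ 3 * iT d e f ^ 2
      + (1 / 3) * iH a b c ^ 3 * iH d e f * iP d e f
      + (1 / 3) * iH a b c ^ 3 * iH d e f ^ 2) := by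
  have h := PE.sound 23 7
    (mul (cst 36) (p24 (fun d e f => mul (qN v0 v1 v2 d e f) (pow (pS v0 v1 v2 d e f) 4)) v3 v4 v5))
    (add (add (add (add (tm (2880) 0 0 1 1 0 1) (tm (-576) 0 0 1 3 0 0)) (add (tm (35) 0 2 0 0 2 0) (add (tm (60) 0 2 0 1 0 1) (tm (128) 0 2 0 1 1 0)))) (add (add (tm (-24) 0 2 0 3 0 0) (tm (2880) 1 0 1 0 0 1)) (add (tm (60) 1 0 1 0 2 0) (add (tm (432) 1 0 1 1 0 1) (tm (768) 1 0 1 1 1 0))))) (add (add (add (tm (-576) 1 0 1 2 0 0) (tm (288) 1 0 1 3 0 0)) (add (tm (128) 1 1 0 0 2 0) (add (tm (768) 1 1 0 1 0 1) (tm (320) 1 1 0 1 1 0)))) (add (add (tm (-576) 2 0 0 1 0 1) (add (tm (288) 2 0 0 3 0 0) (tm (-576) 3 0 0 0 0 1))) (add (tm (-24) 3 0 0 0 2 0) (add (tm (288) 3 0 0 1 0 1) (tm (288) 3 0 0 2 0 0))))))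
    (by decide +kernel) ![a, b, c, d, e, f]
  simp only [p24, p4, PE.ev_add, ev_mul, ev_neg, ev_pow, ev_cst, ev_pS, ev_qN, ev_qT, ev_qP, ev_tm, ev_v0, ev_v1, ev_v2,
    ev_v3, ev_v4, ev_v5] at h
  simp only [s24, s4]
  push_cast at h
  linear_combination (1 / 36) * h

open PE in
theorem m4N5 (a b c d e f : ℝ) : s24 (fun d e f => kN a b c d e f * kS a b c d e f ^ 5) d e f =
    24 * ((17 / 27) * iT a b c * iP a b c * iT d e f * iP d e f
      + (14 / 27) * iT a b c * iP a b c * iT d e f ^ 2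
      + (4 / 3) * iT a b c * iP a b c * iH d e f * iP d e f
      + (-1 / 27) * iT a b c * iP a b c * iH d e f ^ 2 * iT d e f
      + (-4 / 9) * iT a b c * iP a b c * iH d e f ^ 3
      + (14 / 27) * iT a b c ^ 2 * iT d e f * iP d e f
      + (77 / 432) * iT a b c ^ 2 * iT d e f ^ 2
      + (-7 / 12) * iT a b c ^ 2 * iH d e f * iP d e f
      + (-2 / 27) * iT a b c ^ 2 * iH d e f ^ 2 * iT d e f
      + (1 / 18) * iT a b c ^ 2 * iH d e f ^ 3
      + (4 / 3) * iH a b c * iP a b c * iT d e f * iP d e f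
      + (-7 / 12) * iH a b c * iP a b c * iT d e f ^ 2
      + (11) * iH a b c * iP a b c * iH d e f * iP d e f
      + (4 / 9) * iH a b c * iP a b c * iH d e f ^ 2 * iT d e f
      + (-2) * iH a b c * iP a b c * iH d e f ^ 3
      + (5 / 27) * iH a b c * iT a b c * iH d e f ^ 2 * iT d e f
      + (-1 / 27) * iH a b c ^ 2 * iT a b c * iT d e f * iP d e f
      + (-2 / 27) * iH a b c ^ 2 * iT a b c * iT d e f ^ 2
      + (4 / 9) * iH a b c ^ 2 * iT a b c * iH d e f * iP d e f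
      + (5 / 27) * iH a b c ^ 2 * iT a b c * iH d e f * iT d e f
      + (11 / 54) * iH a b c ^ 2 * iT a b c * iH d e f ^ 2 * iT d e f
      + (2 / 9) * iH a b c ^ 2 * iT a b c * iH d e f ^ 3
      + (-4 / 9) * iH a b c ^ 3 * iT d e f * iP d e f
      + (1 / 18) * iH a b c ^ 3 * iT d e f ^ 2
      + (-2) * iH a b c ^ 3 * iH d e f * iP d e f
      + (2 / 9) * iH a b c ^ 3 * iH d e f ^ 2 * iT d e f
      + (2 / 3) * iH a b c ^ 3 * iH d e f ^ 3) := by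
  have h := PE.sound 23 8
    (mul (cst 18) (p24 (fun d e f => mul (qN v0 v1 v2 d e f) (pow (pS v0 v1 v2 d e f) 5)) v3 v4 v5))
    (add (add (add (add (tm (272) 0 1 1 0 1 1) (add (tm (224) 0 1 1 0 2 0) (tm (576) 0 1 1 1 0 1))) (add (tm (-16) 0 1 1 2 1 0) (add (tm (-192) 0 1 1 3 0 0) (tm (224) 0 2 0 0 1 1)))) (add (add (tm (77) 0 2 0 0 2 0) (add (tm (-252) 0 2 0 1 0 1) (tm (-32) 0 2 0 2 1 0))) (add (add (tm (24) 0 2 0 3 0 0) (tm (576) 1 0 1 0 1 1)) (add (tm (-252) 1 0 1 0 2 0) (tm (4752) 1 0 1 1 0 1))))) (add (add (add (tm (192) 1 0 1 2 1 0) (add (tm (-864) 1 0 1 3 0 0) (tm (80) 1 1 0 2 1 0))) (add (add (tm (-16) 2 1 0 0 1 1) (tm (-32) 2 1 0 0 2 0)) (add (tm (192) 2 1 0 1 0 1) (tm (80) 2 1 0 1 1 0)))) (add (add (tm (88) 2 1 0 2 1 0) (add (tm (96) 2 1 0 3 0 0) (tm (-192) 3 0 0 0 1 1))) (add (add (tm (24) 3 0 0 0 2 0) (tm (-864) 3 0 0 1 0 1)) (add (tm (96) 3 0 0 2 1 0) (tm (288) 3 0 0 3 0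 0))))))
    (by decide +kernel) ![a, b, c, d, e, f]
  simp only [p24, p4, PE.ev_add, ev_mul, ev_neg, ev_pow, ev_cst, ev_pS, ev_qN, ev_qT, ev_qP, ev_tm, ev_v0, ev_v1, ev_v2,
    ev_v3, ev_v4, ev_v5] at h
  simp only [s24, s4]
  push_cast at h
  linear_combination (1 / 18) * h

open PE in
theorem m4N6 (a b c d e f : ℝ) : s24 (fun d e f => kN a b c d e f * kS a b c d e f ^ 6) d e f =
    24 * ((-2 / 3) * iP a b c ^ 2 * iP d e f ^ 2
      + (88 / 9) * iP a b c ^ 2 * iT d e f * iP d e f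
      + (-8 / 27) * iP a b c ^ 2 * iH d e f * iT d e f ^ 2
      + (4) * iP a b c ^ 2 * iH d e f ^ 2 * iP d e f
      + (-8 / 3) * iP a b c ^ 2 * iH d e f ^ 2 * iT d e f
      + (-2 / 3) * iP a b c ^ 2 * iH d e f ^ 4
      + (88 / 9) * iT a b c * iP a b c * iP d e f ^ 2
      + (154 / 27) * iT a b c * iP a b c * iT d e f * iP d e f
      + (16 / 81) * iT a b c * iP a b c * iH d e f * iT d e f ^ 2
      + (-8 / 3) * iT a b c * iP a b c * iH d e f ^ 2 * iP d e f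
      + (-14 / 9) * iT a b c * iP a b c * iH d e f ^ 2 * iT d e f
      + (77 / 864) * iT a b c ^ 2 * iH d e f * iT d e f ^ 2
      + (-7 / 24) * iT a b c ^ 2 * iH d e f ^ 2 * iP d e f
      + (1 / 36) * iT a b c ^ 2 * iH d e f ^ 4
      + (-7 / 24) * iH a b c * iP a b c * iH d e f * iT d e f ^ 2
      + (11 / 2) * iH a b c * iP a b c * iH d e f ^ 2 * iP d e f
      + (-1) * iH a b c * iP a b c * iH d e f ^ 4
      + (-8 / 27) * iH a b c * iT a b c ^ 2 * iP d e f ^ 2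
      + (16 / 81) * iH a b c * iT a b c ^ 2 * iT d e f * iP d e f
      + (77 / 864) * iH a b c * iT a b c ^ 2 * iT d e f ^ 2
      + (-7 / 24) * iH a b c * iT a b c ^ 2 * iH d e f * iP d e f
      + (1097 / 7776) * iH a b c * iT a b c ^ 2 * iH d e f * iT d e f ^ 2
      + (-1 / 8) * iH a b c * iT a b c ^ 2 * iH d e f ^ 2 * iP d e f
      + (4 / 27) * iH a b c * iT a b c ^ 2 * iH d e f ^ 2 * iT d e f
      + (1 / 36) * iH a b c * iT a b c ^ 2 * iH d e f ^ 3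
      + (-1 / 108) * iH a b c * iT a b c ^ 2 * iH d e f ^ 4
      + (4) * iH a b c ^ 2 * iP a b c * iP d e f ^ 2
      + (-8 / 3) * iH a b c ^ 2 * iP a b c * iT d e f * iP d e f
      + (-7 / 24) * iH a b c ^ 2 * iP a b c * iT d e f ^ 2
      + (11 / 2) * iH a b c ^ 2 * iP a b c * iH d e f * iP d e f
      + (-1 / 8) * iH a b c ^ 2 * iP a b c * iH d e f * iT d e f ^ 2
      + (-1 / 2) * iH a b c ^ 2 * iP a b c * iH d e f ^ 2 * iP d e f
      + (4 / 3) * iH a b c ^ 2 * iP a b c * iH d e f ^ 2 * iT d e f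
      + (-1) * iH a b c ^ 2 * iP a b c * iH d e f ^ 3
      + (1 / 3) * iH a b c ^ 2 * iP a b c * iH d e f ^ 4
      + (-8 / 3) * iH a b c ^ 2 * iT a b c * iP d e f ^ 2
      + (-14 / 9) * iH a b c ^ 2 * iT a b c * iT d e f * iP d e f
      + (4 / 27) * iH a b c ^ 2 * iT a b c * iH d e f * iT d e f ^ 2
      + (4 / 3) * iH a b c ^ 2 * iT a b c * iH d e f ^ 2 * iP d e f
      + (7 / 9) * iH a b c ^ 2 * iT a b c * iH d e f ^ 2 * iT d e f
      + (1 / 36) * iH a b c ^ 3 * iH d e f * iT d e f ^ 2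
      + (-1) * iH a b c ^ 3 * iH d e f ^ 2 * iP d e f
      + (1 / 3) * iH a b c ^ 3 * iH d e f ^ 4
      + (-2 / 3) * iH a b c ^ 4 * iP d e f ^ 2
      + (1 / 36) * iH a b c ^ 4 * iT d e f ^ 2
      + (-1) * iH a b c ^ 4 * iH d e f * iP d e f
      + (-1 / 108) * iH a b c ^ 4 * iH d e f * iT d e f ^ 2
      + (1 / 3) * iH a b c ^ 4 * iH d e f ^ 2 * iP d e f
      + (1 / 3) * iH a b c ^ 4 * iH d e f ^ 3) := by
  have h := PE.sound 30 9
    (mul (cst 324) (p24 (fun d e f => mul (qN v0 v1 v2 d e f) (pow (pS v0 v1 v2 d e f) 6)) v3 v4 v5))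
    (add (add (add (add (add (tm (-5184) 0 0 2 0 0 2) (add (tm (76032) 0 0 2 0 1 1) (tm (-2304) 0 0 2 1 2 0))) (add (tm (31104) 0 0 2 2 0 1) (add (tm (-20736) 0 0 2 2 1 0) (tm (-5184) 0 0 2 4 0 0)))) (add (add (tm (76032) 0 1 1 0 0 2) (add (tm (44352) 0 1 1 0 1 1) (tm (1536) 0 1 1 1 2 0))) (add (tm (-20736) 0 1 1 2 0 1) (add (tm (-12096) 0 1 1 2 1 0) (tm (693) 0 2 0 1 2 0))))) (add (add (add (tm (-2268) 0 2 0 2 0 1) (add (tm (216) 0 2 0 4 0 0) (tm (-2268) 1 0 1 1 2 0))) (add (tm (42768) 1 0 1 2 0 1) (add (tm (-7776) 1 0 1 4 0 0) (tm (-2304) 1 2 0 0 0 2)))) (add (add (tm (1536) 1 2 0 0 1 1) (add (tm (693) 1 2 0 0 2 0) (tm (-2268) 1 2 0 1 0 1))) (add (tm (1097) 1 2 0 1 2 0) (add (tm (-972) 1 2 0 2 0 1) (tm (1152) 1 2 0 2 1 0)))))) (add (add (add (add (tm (216) 1 2 0 3 0 0) (add (tm (-72) 1 2 0 4 0 0) (tm (31104) 2 0 1 0 0 2))) (add (tm (-20736) 2 0 1 0 1 1) (add (tm (-2268) 2 0 1 0 2 0)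 (tm (42768) 2 0 1 1 0 1)))) (add (add (tm (-972) 2 0 1 1 2 0) (add (tm (-3888) 2 0 1 2 0 1) (tm (10368) 2 0 1 2 1 0))) (add (tm (-7776) 2 0 1 3 0 0) (add (tm (2592) 2 0 1 4 0 0) (tm (-20736) 2 1 0 0 0 2))))) (add (add (add (tm (-12096) 2 1 0 0 1 1) (add (tm (1152) 2 1 0 1 2 0) (tm (10368) 2 1 0 2 0 1))) (add (tm (6048) 2 1 0 2 1 0) (add (tm (216) 3 0 0 1 2 0) (tm (-7776) 3 0 0 2 0 1)))) (add (add (tm (2592) 3 0 0 4 0 0) (add (tm (-5184) 4 0 0 0 0 2) (tm (216) 4 0 0 0 2 0))) (add (add (tm (-7776) 4 0 0 1 0 1) (tm (-72) 4 0 0 1 2 0)) (add (tm (2592) 4 0 0 2 0 1) (tm (2592) 4 0 0 3 0 0)))))))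
    (by decide +kernel) ![a, b, c, d, e, f]
  simp only [p24, p4, PE.ev_add, ev_mul, ev_neg, ev_pow, ev_cst, ev_pS, ev_qN, ev_qT, ev_qP, ev_tm, ev_v0, ev_v1, ev_v2,
    ev_v3, ev_v4, ev_v5] at h
  simp only [s24, s4]
  push_cast at h
  linear_combination (1 / 324) * h

end Crest.Agent.R163
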