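import Crest.Agent.R163.KronDef

/-! R163: moments over the symmetric group (generated). -/

set_option autoImplicit false
set_option linter.unusedVariables false
set_option Elab.async false
set_option linter.unusedSimpArgs false

namespace Crest.Agent.R163

open PE in
theorem m4T0 (a b c d e f : ℝ) : s24 (fun d e f => kT a b c d e f * kS a b c d e f ^ 0) d e f =
    24 * ((1) * iT d e f
      + (1) * iT a b c
      + (1 / 3) * iT a b c * iT d e f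
      + (1) * iT a b c * iH d e f
      + (1) * iH a b c * iT d e f
      + (4) * iH a b c * iH d e f) := by
  have h := PE.sound 14 4
    (mul (cst 1) (p24 (fun d e f => mul (qT v0 v1 v2 d e f) (pow (pS v0 v1 v2 d e f) 0)) v3 v4 v5))
    (add (add (tm (24) 0 0 0 0 1 0) (add (tm (24) 0 1 0 0 0 0) (tm (8) 0 1 0 0 1 0))) (add (tm (24) 0 1 0 1 0 0) (add (tm (24) 1 0 0 0 1 0) (tm (96) 1 0 0 1 0 0))))
    (by decide +kernel) ![a, b, c, d, e, f]
  simp only [p24, p4, PE.ev_add, ev_mul, ev_neg, ev_pow, ev_cst, ev_pS, ev_qN, ev_qT, ev_qP, ev_tm, ev_v0, ev_v1, ev_v2,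
    ev_v3, ev_v4, ev_v5] at h
  simp only [s24, s4]
  push_cast at h
  linear_combination (1 / 1) * h

open PE in
theorem m4T1 (a b c d e f : ℝ) : s24 (fun d e f => kT a b c d e f * kS a b c d e f ^ 1) d e f =
    24 * ((4) * iP a b c * iP d e f
      + (4) * iP a b c * iH d e f
      + (1) * iT a b c * iT d e f
      + (1) * iT a b c * iH d e f
      + (1) * iT a b c * iH d e f ^ 2
      + (4) * iH a b c * iP d e f
      + (1) * iH a b c * iT d e f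
      + (1) * iH a b c ^ 2 * iT d e f) := by
  have h := PE.sound 16 5
    (mul (cst 1) (p24 (fun d e f => mul (qT v0 v1 v2 d e f) (pow (pS v0 v1 v2 d e f) 1)) v3 v4 v5))
    (add (add (add (tm (96) 0 0 1 0 0 1) (tm (96) 0 0 1 1 0 0)) (add (tm (24) 0 1 0 0 1 0) (tm (24) 0 1 0 1 0 0))) (add (add (tm (24) 0 1 0 2 0 0) (tm (96) 1 0 0 0 0 1)) (add (tm (24) 1 0 0 0 1 0) (tm (24) 2 0 0 0 1 0))))
    (by decide +kernel) ![a, b, c, d, e, f]
  simp only [p24, p4, PE.ev_add, ev_mul, ev_neg, ev_pow, ev_cst, ev_pS, ev_qN, ev_qT, ev_qP, ev_tm, ev_v0, ev_v1, ev_v2,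
    ev_v3, ev_v4, ev_v5] at h
  simp only [s24, s4]
  push_cast at h
  linear_combination (1 / 1) * h

open PE in
theorem m4T2 (a b c d e f : ℝ) : s24 (fun d e f => kT a b c d e f * kS a b c d e f ^ 2) d e f =
    24 * ((-4) * iP a b c * iP d e f
      + (2) * iP a b c * iT d e f
      + (2) * iP a b c * iH d e f * iT d e f
      + (4) * iP a b c * iH d e f ^ 2
      + (2) * iT a b c * iP d e f
      + (2 / 3) * iT a b c * iH d e f * iT d e f
      + (1 / 3) * iH a b c * iH d e f * iT d e f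
      + (2) * iH a b c * iT a b c * iP d e f
      + (2 / 3) * iH a b c * iT a b c * iT d e f
      + (1 / 3) * iH a b c * iT a b c * iH d e f
      + (1 / 3) * iH a b c * iT a b c * iH d e f * iT d e f
      + (1 / 3) * iH a b c * iT a b c * iH d e f ^ 2
      + (4) * iH a b c ^ 2 * iP d e f
      + (1 / 3) * iH a b c ^ 2 * iH d e f * iT d e f) := by
  have h := PE.sound 17 6
    (mul (cst 1) (p24 (fun d e f => mul (qT v0 v1 v2 d e f) (pow (pS v0 v1 v2 d e f) 2)) v3 v4 v5))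
    (add (add (add (tm (-96) 0 0 1 0 0 1) (add (tm (48) 0 0 1 0 1 0) (tm (48) 0 0 1 1 1 0))) (add (add (tm (96) 0 0 1 2 0 0) (tm (48) 0 1 0 0 0 1)) (add (tm (16) 0 1 0 1 1 0) (tm (8) 1 0 0 1 1 0)))) (add (add (tm (48) 1 1 0 0 0 1) (add (tm (16) 1 1 0 0 1 0) (tm (8) 1 1 0 1 0 0))) (add (add (tm (8) 1 1 0 1 1 0) (tm (8) 1 1 0 2 0 0)) (add (tm (96) 2 0 0 0 0 1) (tm (8) 2 0 0 1 1 0)))))
    (by decide +kernel) ![a, b, c, d, e, f]
  simp only [p24, p4, PE.ev_add, ev_mul, ev_neg, ev_pow, ev_cst, ev_pS, ev_qN, ev_qT, ev_qP, ev_tm, ev_v0, ev_v1, ev_v2,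
    ev_v3, ev_v4, ev_v5] at h
  simp only [s24, s4]
  push_cast at h
  linear_combination (1 / 1) * h

open PE in
theorem m4T3 (a b c d e f : ℝ) : s24 (fun d e f => kT a b c d e f * kS a b c d e f ^ 3) d e f =
    24 * ((5 / 6) * iP a b c * iT d e f ^ 2
      + (2) * iP a b c * iH d e f * iP d e f
      + (4 / 3) * iP a b c * iH d e f * iT d e f
      + (1 / 6) * iT a b c * iT d e f ^ 2
      + (5 / 6) * iT a b c ^ 2 * iP d e f
      + (1 / 6) * iT a b c ^ 2 * iT d e f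
      + (-1 / 48) * iT a b c ^ 2 * iT d e f ^ 2
      + (5 / 12) * iT a b c ^ 2 * iH d e f * iP d e f
      + (1 / 6) * iT a b c ^ 2 * iH d e f * iT d e f
      + (-1 / 6) * iT a b c ^ 2 * iH d e f ^ 2
      + (2) * iH a b c * iP a b c * iP d e f
      + (5 / 12) * iH a b c * iP a b c * iT d e f ^ 2
      + (1) * iH a b c * iP a b c * iH d e f * iP d e f
      + (4 / 3) * iH a b c * iP a b c * iH d e f * iT d e f
      + (2) * iH a b c * iP a b c * iH d e f ^ 2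
      + (4 / 3) * iH a b c * iT a b c * iP d e f
      + (1 / 6) * iH a b c * iT a b c * iT d e f ^ 2
      + (4 / 3) * iH a b c * iT a b c * iH d e f * iP d e f
      + (13 / 9) * iH a b c * iT a b c * iH d e f * iT d e f
      + (1 / 3) * iH a b c * iT a b c * iH d e f ^ 2
      + (1 / 3) * iH a b c * iT a b c * iH d e f ^ 3
      + (-1 / 6) * iH a b c ^ 2 * iT d e f ^ 2
      + (2) * iH a b c ^ 2 * iH d e f * iP d e f
      + (1 / 3) * iH a b c ^ 2 * iH d e f * iT d e f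
      + (1 / 3) * iH a b c ^ 3 * iH d e f * iT d e f) := by
  have h := PE.sound 21 7
    (mul (cst 6) (p24 (fun d e f => mul (qT v0 v1 v2 d e f) (pow (pS v0 v1 v2 d e f) 3)) v3 v4 v5))
    (add (add (add (add (tm (120) 0 0 1 0 2 0) (add (tm (288) 0 0 1 1 0 1) (tm (192) 0 0 1 1 1 0))) (add (tm (24) 0 1 0 0 2 0) (add (tm (120) 0 2 0 0 0 1) (tm (24) 0 2 0 0 1 0)))) (add (add (tm (-3) 0 2 0 0 2 0) (add (tm (60) 0 2 0 1 0 1) (tm (24) 0 2 0 1 1 0))) (add (tm (-24) 0 2 0 2 0 0) (add (tm (288) 1 0 1 0 0 1) (tm (60) 1 0 1 0 2 0))))) (add (add (add (tm (144) 1 0 1 1 0 1) (add (tm (192) 1 0 1 1 1 0) (tm (288) 1 0 1 2 0 0))) (add (tm (192) 1 1 0 0 0 1) (add (tm (24) 1 1 0 0 2 0) (tm (192) 1 1 0 1 0 1)))) (add (add (tm (208) 1 1 0 1 1 0) (add (tm (48) 1 1 0 2 0 0) (tm (48) 1 1 0 3 0 0))) (add (add (tm (-24) 2 0 0 0 2 0) (tm (288) 2 0 0 1 0 1)) (add (tm (48) 2 0 0 1 1 0) (tm (48) 3 0 0 1 1 0))))))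
    (by decide +kernel) ![a, b, c, d, e, f]
  simp only [p24, p4, PE.ev_add, ev_mul, ev_neg, ev_pow, ev_cst, ev_pS, ev_qN, ev_qT, ev_qP, ev_tm, ev_v0, ev_v1, ev_v2,
    ev_v3, ev_v4, ev_v5] at h
  simp only [s24, s4]
  push_cast at h
  linear_combination (1 / 6) * h

open PE in
theorem m4T4 (a b c d e f : ℝ) : s24 (fun d e f => kT a b c d e f * kS a b c d e f ^ 4) d e f =
    24 * ((10 / 3) * iP a b c * iT d e f * iP d e f
      + (-2 / 3) * iP a b c * iH d e f ^ 2 * iT d e f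
      + (10 / 3) * iT a b c * iP a b c * iP d e f
      + (2 / 3) * iT a b c * iP a b c * iT d e f * iP d e f
      + (10 / 3) * iT a b c * iP a b c * iH d e f * iP d e f
      + (8 / 9) * iT a b c * iP a b c * iH d e f * iT d e f
      + (-2 / 3) * iT a b c * iP a b c * iH d e f ^ 2
      + (2 / 9) * iT a b c * iP a b c * iH d e f ^ 2 * iT d e f
      + (-2 / 3) * iT a b c * iP a b c * iH d e f ^ 3
      + (35 / 144) * iT a b c ^ 2 * iT d e f ^ 2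
      + (5 / 12) * iT a b c ^ 2 * iH d e f * iP d e f
      + (2 / 9) * iT a b c ^ 2 * iH d e f * iT d e f
      + (2 / 9) * iT a b c ^ 2 * iH d e f ^ 2 * iT d e f
      + (-1 / 6) * iT a b c ^ 2 * iH d e f ^ 3
      + (10 / 3) * iH a b c * iP a b c * iT d e f * iP d e f
      + (5 / 12) * iH a b c * iP a b c * iT d e f ^ 2
      + (3) * iH a b c * iP a b c * iH d e f * iP d e f
      + (4 / 3) * iH a b c * iP a b c * iH d e f * iT d e f
      + (2 / 3) * iH a b c * iP a b c * iH d e f ^ 2 * iT d e f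
      + (2) * iH a b c * iP a b c * iH d e f ^ 3
      + (8 / 9) * iH a b c * iT a b c * iT d e f * iP d e f
      + (2 / 9) * iH a b c * iT a b c * iT d e f ^ 2
      + (4 / 3) * iH a b c * iT a b c * iH d e f * iP d e f
      + (4 / 9) * iH a b c * iT a b c * iH d e f ^ 2 * iT d e f
      + (-2 / 3) * iH a b c ^ 2 * iT d e f * iP d e f
      + (1 / 3) * iH a b c ^ 2 * iH d e f ^ 2 * iT d e f
      + (-2 / 3) * iH a b c ^ 2 * iT a b c * iP d e f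
      + (2 / 9) * iH a b c ^ 2 * iT a b c * iT d e f * iP d e f
      + (2 / 9) * iH a b c ^ 2 * iT a b c * iT d e f ^ 2
      + (2 / 3) * iH a b c ^ 2 * iT a b c * iH d e f * iP d e f
      + (4 / 9) * iH a b c ^ 2 * iT a b c * iH d e f * iT d e f
      + (1 / 3) * iH a b c ^ 2 * iT a b c * iH d e f ^ 2
      + (1 / 9) * iH a b c ^ 2 * iT a b c * iH d e f ^ 2 * iT d e f
      + (1 / 3) * iH a b c ^ 2 * iT a b c * iH d e f ^ 3
      + (-2 / 3) * iH a b c ^ 3 * iT d e f * iP d e f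
      + (-1 / 6) * iH a b c ^ 3 * iT d e f ^ 2
      + (2) * iH a b c ^ 3 * iH d e f * iP d e f
      + (1 / 3) * iH a b c ^ 3 * iH d e f ^ 2 * iT d e f) := by
  have h := PE.sound 23 8
    (mul (cst 6) (p24 (fun d e f => mul (qT v0 v1 v2 d e f) (pow (pS v0 v1 v2 d e f) 4)) v3 v4 v5))
    (add (add (add (add (add (tm (480) 0 0 1 0 1 1) (tm (-96) 0 0 1 2 1 0)) (add (tm (480) 0 1 1 0 0 1) (tm (96) 0 1 1 0 1 1))) (add (add (tm (480) 0 1 1 1 0 1) (tm (128) 0 1 1 1 1 0)) (add (tm (-96) 0 1 1 2 0 0) (add (tm (32) 0 1 1 2 1 0) (tm (-96) 0 1 1 3 0 0))))) (add (add (add (tm (35) 0 2 0 0 2 0) (tm (60) 0 2 0 1 0 1)) (add (tm (32) 0 2 0 1 1 0) (add (tm (32) 0 2 0 2 1 0) (tm (-24) 0 2 0 3 0 0)))) (add (add (tm (480) 1 0 1 0 1 1) (tm (60) 1 0 1 0 2 0)) (add (tm (432) 1 0 1 1 0 1) (add (tm (192) 1 0 1 1 1 0) (tm (96) 1 0 1 2 1 0)))))) (add (add (add (add (tm (288) 1 0 1 3 0 0) (tm (128) 1 1 0 0 1 1))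 (add (tm (32) 1 1 0 0 2 0) (tm (192) 1 1 0 1 0 1))) (add (add (tm (64) 1 1 0 2 1 0) (tm (-96) 2 0 0 0 1 1)) (add (tm (48) 2 0 0 2 1 0) (add (tm (-96) 2 1 0 0 0 1) (tm (32) 2 1 0 0 1 1))))) (add (add (add (tm (32) 2 1 0 0 2 0) (tm (96) 2 1 0 1 0 1)) (add (tm (64) 2 1 0 1 1 0) (add (tm (48) 2 1 0 2 0 0) (tm (16) 2 1 0 2 1 0)))) (add (add (tm (48) 2 1 0 3 0 0) (tm (-96) 3 0 0 0 1 1)) (add (tm (-24) 3 0 0 0 2 0) (add (tm (288) 3 0 0 1 0 1) (tm (48) 3 0 0 2 1 0)))))))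
    (by decide +kernel) ![a, b, c, d, e, f]
  simp only [p24, p4, PE.ev_add, ev_mul, ev_neg, ev_pow, ev_cst, ev_pS, ev_qN, ev_qT, ev_qP, ev_tm, ev_v0, ev_v1, ev_v2,
    ev_v3, ev_v4, ev_v5] at h
  simp only [s24, s4]
  push_cast at h
  linear_combination (1 / 6) * h

open PE in
theorem m4T5 (a b c d e f : ℝ) : s24 (fun d e f => kT a b c d e f * kS a b c d e f ^ 5) d e f =
    24 * ((4) * iP a b c ^ 2 * iP d e f ^ 2
      + (-7 / 6) * iP a b c ^ 2 * iT d e f ^ 2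
      + (22) * iP a b c ^ 2 * iH d e f * iP d e f
      + (11 / 18) * iP a b c ^ 2 * iH d e f * iT d e f ^ 2
      + (-2) * iP a b c ^ 2 * iH d e f ^ 2 * iP d e f
      + (-4) * iP a b c ^ 2 * iH d e f ^ 3
      + (34 / 9) * iT a b c * iP a b c * iT d e f * iP d e f
      + (7 / 9) * iT a b c * iP a b c * iT d e f ^ 2
      + (2) * iT a b c * iP a b c * iH d e f * iP d e f
      + (7 / 9) * iT a b c * iP a b c * iH d e f * iT d e f ^ 2
      + (2) * iT a b c * iP a b c * iH d e f ^ 2 * iP d e f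
      + (-2 / 9) * iT a b c * iP a b c * iH d e f ^ 2 * iT d e f
      + (-2 / 3) * iT a b c * iP a b c * iH d e f ^ 3
      + (-2 / 3) * iT a b c * iP a b c * iH d e f ^ 4
      + (-7 / 6) * iT a b c ^ 2 * iP d e f ^ 2
      + (7 / 9) * iT a b c ^ 2 * iT d e f * iP d e f
      + (133 / 432) * iT a b c ^ 2 * iH d e f * iT d e f ^ 2
      + (-1 / 4) * iT a b c ^ 2 * iH d e f ^ 2 * iP d e f
      + (-1 / 9) * iT a b c ^ 2 * iH d e f ^ 2 * iT d e f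
      + (22) * iH a b c * iP a b c * iP d e f ^ 2
      + (2) * iH a b c * iP a b c * iT d e f * iP d e f
      + (-1 / 4) * iH a b c * iP a b c * iH d e f * iT d e f ^ 2
      + (-1) * iH a b c * iP a b c * iH d e f ^ 2 * iP d e f
      + (2 / 3) * iH a b c * iP a b c * iH d e f ^ 2 * iT d e f
      + (5 / 27) * iH a b c * iT a b c * iH d e f * iT d e f ^ 2
      + (11 / 18) * iH a b c * iT a b c ^ 2 * iP d e f ^ 2
      + (7 / 9) * iH a b c * iT a b c ^ 2 * iT d e f * iP d e f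
      + (133 / 432) * iH a b c * iT a b c ^ 2 * iT d e f ^ 2
      + (-1 / 4) * iH a b c * iT a b c ^ 2 * iH d e f * iP d e f
      + (5 / 27) * iH a b c * iT a b c ^ 2 * iH d e f * iT d e f
      + (7 / 432) * iH a b c * iT a b c ^ 2 * iH d e f * iT d e f ^ 2
      + (1 / 4) * iH a b c * iT a b c ^ 2 * iH d e f ^ 2 * iP d e f
      + (2 / 27) * iH a b c * iT a b c ^ 2 * iH d e f ^ 2 * iT d e f
      + (-1 / 18) * iH a b c * iT a b c ^ 2 * iH d e f ^ 3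
      + (-2) * iH a b c ^ 2 * iP a b c * iP d e f ^ 2
      + (2) * iH a b c ^ 2 * iP a b c * iT d e f * iP d e f
      + (-1 / 4) * iH a b c ^ 2 * iP a b c * iT d e f ^ 2
      + (-1) * iH a b c ^ 2 * iP a b c * iH d e f * iP d e f
      + (1 / 4) * iH a b c ^ 2 * iP a b c * iH d e f * iT d e f ^ 2
      + (1) * iH a b c ^ 2 * iP a b c * iH d e f ^ 2 * iP d e f
      + (2 / 3) * iH a b c ^ 2 * iP a b c * iH d e f ^ 2 * iT d e f
      + (2) * iH a b c ^ 2 * iP a b c * iH d e f ^ 3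
      + (-2 / 9) * iH a b c ^ 2 * iT a b c * iT d e f * iP d e f
      + (-1 / 9) * iH a b c ^ 2 * iT a b c * iT d e f ^ 2
      + (2 / 3) * iH a b c ^ 2 * iT a b c * iH d e f * iP d e f
      + (2 / 27) * iH a b c ^ 2 * iT a b c * iH d e f * iT d e f ^ 2
      + (2 / 3) * iH a b c ^ 2 * iT a b c * iH d e f ^ 2 * iP d e f
      + (11 / 9) * iH a b c ^ 2 * iT a b c * iH d e f ^ 2 * iT d e f
      + (1 / 3) * iH a b c ^ 2 * iT a b c * iH d e f ^ 3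
      + (1 / 3) * iH a b c ^ 2 * iT a b c * iH d e f ^ 4
      + (-4) * iH a b c ^ 3 * iP d e f ^ 2
      + (-2 / 3) * iH a b c ^ 3 * iT d e f * iP d e f
      + (-1 / 18) * iH a b c ^ 3 * iH d e f * iT d e f ^ 2
      + (2) * iH a b c ^ 3 * iH d e f ^ 2 * iP d e f
      + (1 / 3) * iH a b c ^ 3 * iH d e f ^ 2 * iT d e f
      + (-2 / 3) * iH a b c ^ 4 * iT d e f * iP d e f
      + (1 / 3) * iH a b c ^ 4 * iH d e f ^ 2 * iT d e f) := by
  have h := PE.sound 26 9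
    (mul (cst 18) (p24 (fun d e f => mul (qT v0 v1 v2 d e f) (pow (pS v0 v1 v2 d e f) 5)) v3 v4 v5))
    (add (add (add (add (add (tm (1728) 0 0 2 0 0 2) (add (tm (-504) 0 0 2 0 2 0) (tm (9504) 0 0 2 1 0 1))) (add (add (tm (264) 0 0 2 1 2 0) (tm (-864) 0 0 2 2 0 1)) (add (tm (-1728) 0 0 2 3 0 0) (tm (1632) 0 1 1 0 1 1)))) (add (add (tm (336) 0 1 1 0 2 0) (add (tm (864) 0 1 1 1 0 1) (tm (336) 0 1 1 1 2 0))) (add (add (tm (864) 0 1 1 2 0 1) (tm (-96) 0 1 1 2 1 0)) (add (tm (-288) 0 1 1 3 0 0) (tm (-288) 0 1 1 4 0 0))))) (add (add (add (tm (-504) 0 2 0 0 0 2) (add (tm (336) 0 2 0 0 1 1) (tm (133) 0 2 0 1 2 0))) (add (add (tm (-108) 0 2 0 2 0 1) (tm (-48) 0 2 0 2 1 0)) (add (tm (9504) 1 0 1 0 0 2) (tm (864) 1 0 1 0 1 1)))) (add (add (tm (-108) 1 0 1 1 2 0) (add (tm (-432) 1 0 1 2 0 1) (tm (288) 1 0 1 2 1 0))) (add (add (tm (80) 1 1 0 1 2 0) (tm (264) 1 2 0 0 0 2)) (add (tm (336) 1 2 0 0 1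 1) (tm (133) 1 2 0 0 2 0)))))) (add (add (add (add (tm (-108) 1 2 0 1 0 1) (add (tm (80) 1 2 0 1 1 0) (tm (7) 1 2 0 1 2 0))) (add (add (tm (108) 1 2 0 2 0 1) (tm (32) 1 2 0 2 1 0)) (add (tm (-24) 1 2 0 3 0 0) (tm (-864) 2 0 1 0 0 2)))) (add (add (tm (864) 2 0 1 0 1 1) (add (tm (-108) 2 0 1 0 2 0) (tm (-432) 2 0 1 1 0 1))) (add (add (tm (108) 2 0 1 1 2 0) (tm (432) 2 0 1 2 0 1)) (add (tm (288) 2 0 1 2 1 0) (tm (864) 2 0 1 3 0 0))))) (add (add (add (tm (-96) 2 1 0 0 1 1) (add (tm (-48) 2 1 0 0 2 0) (tm (288) 2 1 0 1 0 1))) (add (add (tm (32) 2 1 0 1 2 0) (tm (288) 2 1 0 2 0 1)) (add (tm (528) 2 1 0 2 1 0) (tm (144) 2 1 0 3 0 0)))) (add (add (add (tm (144) 2 1 0 4 0 0) (tm (-1728) 3 0 0 0 0 2)) (add (tm (-288) 3 0 0 0 1 1) (tm (-24) 3 0 0 1 2 0))) (add (add (tm (864) 3 0 0 2 0 1) (tm (144) 3 0 0 2 1 0)) (add (tm (-288) 4 0 0 0 1 1) (tm (144) 4 0 0 2 1 0)))))))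
    (by decide +kernel) ![a, b, c, d, e, f]
  simp only [p24, p4, PE.ev_add, ev_mul, ev_neg, ev_pow, ev_cst, ev_pS, ev_qN, ev_qT, ev_qP, ev_tm, ev_v0, ev_v1, ev_v2,
    ev_v3, ev_v4, ev_v5] at h
  simp only [s24, s4]
  push_cast at h
  linear_combination (1 / 18) * h

open PE in
theorem m4NN0 (a b c d e f : ℝ) : s24 (fun d e f => kN a b c d e f ^ 2 * kS a b c d e f ^ 0) d e f =
    24 * ((1) * iH d e f ^ 2
      + (10 / 3) * iP a b c * iP d e f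
      + (8 / 3) * iP a b c * iT d e f
      + (16 / 3) * iP a b c * iH d e f
      + (-2 / 3) * iP a b c * iH d e f ^ 2
      + (8 / 3) * iT a b c * iP d e f
      + (10 / 3) * iT a b c * iT d e f
      + (8 / 3) * iT a b c * iH d e f
      + (16 / 3) * iH a b c * iP d e f
      + (8 / 3) * iH a b c * iT d e f
      + (10 / 3) * iH a b c * iH d e f
      + (4 / 3) * iH a b c * iH d e f ^ 2
      + (1) * iH a b c ^ 2
      + (-2 / 3) * iH a b c ^ 2 * iP d e f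
      + (4 / 3) * iH a b c ^ 2 * iH d e f
      + (2 / 3) * iH a b c ^ 2 * iH d e f ^ 2) := by
  have h := PE.sound 17 5
    (mul (cst 1) (p24 (fun d e f => mul (pow (qN v0 v1 v2 d e f) 2) (pow (pS v0 v1 v2 d e f) 0)) v3 v4 v5))
    (add (add (add (add (tm (24) 0 0 0 2 0 0) (tm (80) 0 0 1 0 0 1)) (add (tm (64) 0 0 1 0 1 0) (tm (128) 0 0 1 1 0 0))) (add (add (tm (-16) 0 0 1 2 0 0) (tm (64) 0 1 0 0 0 1)) (add (tm (80) 0 1 0 0 1 0) (tm (64) 0 1 0 1 0 0)))) (add (add (add (tm (128) 1 0 0 0 0 1) (tm (64) 1 0 0 0 1 0)) (add (tm (80) 1 0 0 1 0 0) (tm (32) 1 0 0 2 0 0))) (add (add (tm (24) 2 0 0 0 0 0) (tm (-16) 2 0 0 0 0 1)) (add (tm (32) 2 0 0 1 0 0) (tm (16) 2 0 0 2 0 0)))))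
    (by decide +kernel) ![a, b, c, d, e, f]
  simp only [p24, p4, PE.ev_add, ev_mul, ev_neg, ev_pow, ev_cst, ev_pS, ev_qN, ev_qT, ev_qP, ev_tm, ev_v0, ev_v1, ev_v2,
    ev_v3, ev_v4, ev_v5] at h
  simp only [s24, s4]
  push_cast at h
  linear_combination (1 / 1) * h

open PE in
theorem m4NN1 (a b c d e f : ℝ) : s24 (fun d e f => kN a b c d e f ^ 2 * kS a b c d e f ^ 1) d e f =
    24 * ((56 / 3) * iP a b c * iP d e f
      + (16 / 3) * iP a b c * iT d e f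
      + (16 / 9) * iP a b c * iH d e f * iT d e f
      + (8 / 3) * iP a b c * iH d e f ^ 2
      + (16 / 3) * iT a b c * iP d e f
      + (2 / 3) * iT a b c * iT d e f
      + (11 / 9) * iT a b c * iH d e f * iT d e f
      + (4 / 3) * iT a b c * iH d e f ^ 2
      + (4 / 3) * iH a b c * iH d e f * iT d e f
      + (4 / 3) * iH a b c * iH d e f ^ 2
      + (16 / 9) * iH a b c * iT a b c * iP d e f
      + (11 / 9) * iH a b c * iT a b c * iT d e f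
      + (4 / 3) * iH a b c * iT a b c * iH d e f
      + (8 / 27) * iH a b c * iT a b c * iH d e f * iT d e f
      + (8 / 9) * iH a b c * iT a b c * iH d e f ^ 2
      + (8 / 3) * iH a b c ^ 2 * iP d e f
      + (4 / 3) * iH a b c ^ 2 * iT d e f
      + (4 / 3) * iH a b c ^ 2 * iH d e f
      + (8 / 9) * iH a b c ^ 2 * iH d e f * iT d e f) := by
  have h := PE.sound 21 6
    (mul (cst 9) (p24 (fun d e f => mul (pow (qN v0 v1 v2 d e f) 2) (pow (pS v0 v1 v2 d e f) 1)) v3 v4 v5))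
    (add (add (add (add (tm (4032) 0 0 1 0 0 1) (tm (1152) 0 0 1 0 1 0)) (add (tm (384) 0 0 1 1 1 0) (tm (576) 0 0 1 2 0 0))) (add (add (tm (1152) 0 1 0 0 0 1) (tm (144) 0 1 0 0 1 0)) (add (tm (264) 0 1 0 1 1 0) (add (tm (288) 0 1 0 2 0 0) (tm (288) 1 0 0 1 1 0))))) (add (add (add (tm (288) 1 0 0 2 0 0) (tm (384) 1 1 0 0 0 1)) (add (tm (264) 1 1 0 0 1 0) (add (tm (288) 1 1 0 1 0 0) (tm (64) 1 1 0 1 1 0)))) (add (add (tm (192) 1 1 0 2 0 0) (tm (576) 2 0 0 0 0 1)) (add (tm (288) 2 0 0 0 1 0) (add (tm (288) 2 0 0 1 0 0) (tm (192) 2 0 0 1 1 0))))))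
    (by decide +kernel) ![a, b, c, d, e, f]
  simp only [p24, p4, PE.ev_add, ev_mul, ev_neg, ev_pow, ev_cst, ev_pS, ev_qN, ev_qT, ev_qP, ev_tm, ev_v0, ev_v1, ev_v2,
    ev_v3, ev_v4, ev_v5] at h
  simp only [s24, s4]
  push_cast at h
  linear_combination (1 / 9) * h

open PE in
theorem m4NN2 (a b c d e f : ℝ) : s24 (fun d e f => kN a b c d e f ^ 2 * kS a b c d e f ^ 2) d e f =
    24 * ((40 / 3) * iP a b c * iP d e f
      + (4 / 9) * iP a b c * iT d e f ^ 2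
      + (4) * iP a b c * iH d e f * iP d e f
      + (56 / 9) * iP a b c * iH d e f * iT d e f
      + (-8 / 3) * iP a b c * iH d e f ^ 2
      + (4 / 3) * iP a b c * iH d e f ^ 3
      + (8 / 3) * iT a b c * iH d e f * iP d e f
      + (2 / 3) * iT a b c * iH d e f * iT d e f
      + (4 / 9) * iT a b c ^ 2 * iP d e f
      + (29 / 864) * iT a b c ^ 2 * iT d e f ^ 2
      + (-5 / 72) * iT a b c ^ 2 * iH d e f * iP d e f
      + (8 / 27) * iT a b c ^ 2 * iH d e f * iT d e f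
      + (4 / 9) * iT a b c ^ 2 * iH d e f ^ 2
      + (1 / 36) * iT a b c ^ 2 * iH d e f ^ 3
      + (1 / 3) * iH a b c * iH d e f ^ 3
      + (4) * iH a b c * iP a b c * iP d e f
      + (8 / 3) * iH a b c * iP a b c * iT d e f
      + (-5 / 72) * iH a b c * iP a b c * iT d e f ^ 2
      + (3 / 2) * iH a b c * iP a b c * iH d e f * iP d e f
      + (8 / 3) * iH a b c * iP a b c * iH d e f * iT d e f
      + (4 / 3) * iH a b c * iP a b c * iH d e f ^ 2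
      + (1 / 3) * iH a b c * iP a b c * iH d e f ^ 3
      + (56 / 9) * iH a b c * iT a b c * iP d e f
      + (2 / 3) * iH a b c * iT a b c * iT d e f
      + (8 / 27) * iH a b c * iT a b c * iT d e f ^ 2
      + (8 / 3) * iH a b c * iT a b c * iH d e f * iP d e f
      + (82 / 27) * iH a b c * iT a b c * iH d e f * iT d e f
      + (8 / 9) * iH a b c * iT a b c * iH d e f ^ 2
      + (-8 / 3) * iH a b c ^ 2 * iP d e f
      + (4 / 9) * iH a b c ^ 2 * iT d e f ^ 2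
      + (4 / 3) * iH a b c ^ 2 * iH d e f * iP d e f
      + (8 / 9) * iH a b c ^ 2 * iH d e f * iT d e f
      + (2) * iH a b c ^ 2 * iH d e f ^ 2
      + (4 / 3) * iH a b c ^ 3 * iP d e f
      + (1 / 36) * iH a b c ^ 3 * iT d e f ^ 2
      + (1 / 3) * iH a b c ^ 3 * iH d e f
      + (1 / 3) * iH a b c ^ 3 * iH d e f * iP d e f) := by
  have h := PE.sound 25 7
    (mul (cst 36) (p24 (fun d e f => mul (pow (qN v0 v1 v2 d e f) 2) (pow (pS v0 v1 v2 d e f) 2)) v3 v4 v5))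
    (add (add (add (add (add (tm (11520) 0 0 1 0 0 1) (tm (384) 0 0 1 0 2 0)) (add (tm (3456) 0 0 1 1 0 1) (tm (5376) 0 0 1 1 1 0))) (add (add (tm (-2304) 0 0 1 2 0 0) (tm (1152) 0 0 1 3 0 0)) (add (tm (2304) 0 1 0 1 0 1) (add (tm (576) 0 1 0 1 1 0) (tm (384) 0 2 0 0 0 1))))) (add (add (add (tm (29) 0 2 0 0 2 0) (tm (-60) 0 2 0 1 0 1)) (add (tm (256) 0 2 0 1 1 0) (tm (384) 0 2 0 2 0 0))) (add (add (tm (24) 0 2 0 3 0 0) (tm (288) 1 0 0 3 0 0)) (add (tm (3456) 1 0 1 0 0 1) (add (tm (2304) 1 0 1 0 1 0) (tm (-60) 1 0 1 0 2 0)))))) (add (add (add (add (tm (1296) 1 0 1 1 0 1) (tm (2304) 1 0 1 1 1 0)) (add (tm (1152) 1 0 1 2 0 0) (tm (288) 1 0 1 3 0 0))) (add (add (tm (5376) 1 1 0 0 0 1) (tm (576) 1 1 0 0 1 0)) (add (tm (256) 1 1 0 0 2 0) (add (tm (2304) 1 1 0 1 0 1) (tm (2624) 1 1 0 1 1 0))))) (add (add (add (tm (768) 1 1 0 2 0 0) (tm (-2304) 2 0 0 0 0 1)) (add (tm (384) 2 0 0 0 2 0) (add (tm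 (1152) 2 0 0 1 0 1) (tm (768) 2 0 0 1 1 0)))) (add (add (tm (1728) 2 0 0 2 0 0) (tm (1152) 3 0 0 0 0 1)) (add (tm (24) 3 0 0 0 2 0) (add (tm (288) 3 0 0 1 0 0) (tm (288) 3 0 0 1 0 1)))))))
    (by decide +kernel) ![a, b, c, d, e, f]
  simp only [p24, p4, PE.ev_add, ev_mul, ev_neg, ev_pow, ev_cst, ev_pS, ev_qN, ev_qT, ev_qP, ev_tm, ev_v0, ev_v1, ev_v2,
    ev_v3, ev_v4, ev_v5] at h
  simp only [s24, s4]
  push_cast at h
  linear_combination (1 / 36) * h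

open PE in
theorem m4NN3 (a b c d e f : ℝ) : s24 (fun d e f => kN a b c d e f ^ 2 * kS a b c d e f ^ 3) d e f =
    24 * ((40 / 3) * iP a b c * iH d e f * iP d e f
      + (16 / 9) * iP a b c * iH d e f ^ 2 * iT d e f
      + (-8 / 3) * iP a b c * iH d e f ^ 3
      + (1 / 6) * iT a b c * iH d e f ^ 2 * iT d e f
      + (-7 / 27) * iT a b c * iP a b c * iT d e f * iP d e f
      + (16 / 27) * iT a b c * iP a b c * iT d e f ^ 2
      + (-8 / 9) * iT a b c * iP a b c * iH d e f * iP d e f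
      + (56 / 27) * iT a b c * iP a b c * iH d e f * iT d e f
      + (7 / 27) * iT a b c * iP a b c * iH d e f ^ 2 * iT d e f
      + (8 / 9) * iT a b c * iP a b c * iH d e f ^ 3
      + (16 / 27) * iT a b c ^ 2 * iT d e f * iP d e f
      + (43 / 216) * iT a b c ^ 2 * iT d e f ^ 2
      + (5 / 2) * iT a b c ^ 2 * iH d e f * iP d e f
      + (16 / 27) * iT a b c ^ 2 * iH d e f * iT d e f
      + (-1 / 9) * iT a b c ^ 2 * iH d e f ^ 3
      + (40 / 3) * iH a b c * iP a b c * iP d e f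
      + (-8 / 9) * iH a b c * iP a b c * iT d e f * iP d e f
      + (5 / 2) * iH a b c * iP a b c * iT d e f ^ 2
      + (22 / 3) * iH a b c * iP a b c * iH d e f * iP d e f
      + (16 / 3) * iH a b c * iP a b c * iH d e f * iT d e f
      + (-8 / 3) * iH a b c * iP a b c * iH d e f ^ 2
      + (8 / 3) * iH a b c * iP a b c * iH d e f ^ 2 * iT d e f
      + (4 / 3) * iH a b c * iP a b c * iH d e f ^ 3
      + (56 / 27) * iH a b c * iT a b c * iT d e f * iP d e f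
      + (16 / 27) * iH a b c * iT a b c * iT d e f ^ 2
      + (16 / 3) * iH a b c * iT a b c * iH d e f * iP d e f
      + (29 / 27) * iH a b c * iT a b c * iH d e f * iT d e f
      + (7 / 9) * iH a b c * iT a b c * iH d e f ^ 2 * iT d e f
      + (4 / 9) * iH a b c * iT a b c * iH d e f ^ 3
      + (-8 / 3) * iH a b c ^ 2 * iH d e f * iP d e f
      + (4 / 9) * iH a b c ^ 2 * iH d e f ^ 2 * iT d e f
      + (4 / 3) * iH a b c ^ 2 * iH d e f ^ 3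
      + (16 / 9) * iH a b c ^ 2 * iT a b c * iP d e f
      + (1 / 6) * iH a b c ^ 2 * iT a b c * iT d e f
      + (7 / 27) * iH a b c ^ 2 * iT a b c * iT d e f * iP d e f
      + (8 / 3) * iH a b c ^ 2 * iT a b c * iH d e f * iP d e f
      + (7 / 9) * iH a b c ^ 2 * iT a b c * iH d e f * iT d e f
      + (4 / 9) * iH a b c ^ 2 * iT a b c * iH d e f ^ 2
      + (5 / 27) * iH a b c ^ 2 * iT a b c * iH d e f ^ 2 * iT d e f
      + (-8 / 3) * iH a b c ^ 3 * iP d e f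
      + (8 / 9) * iH a b c ^ 3 * iT d e f * iP d e f
      + (-1 / 9) * iH a b c ^ 3 * iT d e f ^ 2
      + (4 / 3) * iH a b c ^ 3 * iH d e f * iP d e f
      + (4 / 9) * iH a b c ^ 3 * iH d e f * iT d e f
      + (4 / 3) * iH a b c ^ 3 * iH d e f ^ 2) := by
  have h := PE.sound 25 8
    (mul (cst 9) (p24 (fun d e f => mul (pow (qN v0 v1 v2 d e f) 2) (pow (pS v0 v1 v2 d e f) 3)) v3 v4 v5))
    (add (add (add (add (add (tm (2880) 0 0 1 1 0 1) (tm (384) 0 0 1 2 1 0)) (add (tm (-576) 0 0 1 3 0 0) (add (tm (36) 0 1 0 2 1 0) (tm (-56) 0 1 1 0 1 1)))) (add (add (tm (128) 0 1 1 0 2 0) (add (tm (-192) 0 1 1 1 0 1) (tm (448) 0 1 1 1 1 0))) (add (tm (56) 0 1 1 2 1 0) (add (tm (192) 0 1 1 3 0 0) (tm (128) 0 2 0 0 1 1))))) (add (add (add (tm (43) 0 2 0 0 2 0) (tm (540) 0 2 0 1 0 1)) (add (tm (128) 0 2 0 1 1 0) (add (tm (-24) 0 2 0 3 0 0) (tm (2880) 1 0 1 0 0 1)))) (add (add (tm (-192) 1 0 1 0 1 1)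 (add (tm (540) 1 0 1 0 2 0) (tm (1584) 1 0 1 1 0 1))) (add (tm (1152) 1 0 1 1 1 0) (add (tm (-576) 1 0 1 2 0 0) (tm (576) 1 0 1 2 1 0)))))) (add (add (add (add (tm (288) 1 0 1 3 0 0) (tm (448) 1 1 0 0 1 1)) (add (tm (128) 1 1 0 0 2 0) (add (tm (1152) 1 1 0 1 0 1) (tm (232) 1 1 0 1 1 0)))) (add (add (tm (168) 1 1 0 2 1 0) (add (tm (96) 1 1 0 3 0 0) (tm (-576) 2 0 0 1 0 1))) (add (tm (96) 2 0 0 2 1 0) (add (tm (288) 2 0 0 3 0 0) (tm (384) 2 1 0 0 0 1))))) (add (add (add (tm (36) 2 1 0 0 1 0) (add (tm (56) 2 1 0 0 1 1) (tm (576) 2 1 0 1 0 1))) (add (tm (168) 2 1 0 1 1 0) (add (tm (96) 2 1 0 2 0 0) (tm (40) 2 1 0 2 1 0)))) (add (add (tm (-576) 3 0 0 0 0 1) (add (tm (192) 3 0 0 0 1 1) (tm (-24) 3 0 0 0 2 0))) (add (tm (288) 3 0 0 1 0 1) (add (tm (96) 3 0 0 1 1 0) (tm (288) 3 0 0 2 0 0)))))))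
    (by decide +kernel) ![a, b, c, d, e, f]
  simp only [p24, p4, PE.ev_add, ev_mul, ev_neg, ev_pow, ev_cst, ev_pS, ev_qN, ev_qT, ev_qP, ev_tm, ev_v0, ev_v1, ev_v2,
    ev_v3, ev_v4, ev_v5] at h
  simp only [s24, s4]
  push_cast at h
  linear_combination (1 / 9) * h

open PE in
theorem m4NN4 (a b c d e f : ℝ) : s24 (fun d e f => kN a b c d e f ^ 2 * kS a b c d e f ^ 4) d e f =
    24 * ((10 / 3) * iP a b c * iH d e f ^ 2 * iP d e f
      + (-2 / 3) * iP a b c * iH d e f ^ 4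
      + (2 / 3) * iP a b c ^ 2 * iP d e f ^ 2
      + (-16 / 9) * iP a b c ^ 2 * iT d e f * iP d e f
      + (28 / 9) * iP a b c ^ 2 * iT d e f ^ 2
      + (-16 / 3) * iP a b c ^ 2 * iH d e f * iP d e f
      + (-2 / 27) * iP a b c ^ 2 * iH d e f * iT d e f ^ 2
      + (-4 / 3) * iP a b c ^ 2 * iH d e f ^ 2 * iP d e f
      + (16 / 9) * iP a b c ^ 2 * iH d e f ^ 2 * iT d e f
      + (2 / 3) * iP a b c ^ 2 * iH d e f ^ 4
      + (-16 / 9) * iT a b c * iP a b c * iP d e f ^ 2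
      + (244 / 27) * iT a b c * iP a b c * iT d e f * iP d e f
      + (56 / 27) * iT a b c * iP a b c * iT d e f ^ 2
      + (16 / 3) * iT a b c * iP a b c * iH d e f * iP d e f
      + (32 / 81) * iT a b c * iP a b c * iH d e f * iT d e f ^ 2
      + (16 / 9) * iT a b c * iP a b c * iH d e f ^ 2 * iP d e f
      + (4 / 9) * iT a b c * iP a b c * iH d e f ^ 2 * iT d e f
      + (-16 / 9) * iT a b c * iP a b c * iH d e f ^ 3
      + (28 / 9) * iT a b c ^ 2 * iP d e f ^ 2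
      + (56 / 27) * iT a b c ^ 2 * iT d e f * iP d e f
      + (77 / 216) * iT a b c ^ 2 * iT d e f ^ 2
      + (-7 / 6) * iT a b c ^ 2 * iH d e f * iP d e f
      + (97 / 1296) * iT a b c ^ 2 * iH d e f * iT d e f ^ 2
      + (-1 / 12) * iT a b c ^ 2 * iH d e f ^ 2 * iP d e f
      + (1 / 9) * iT a b c ^ 2 * iH d e f ^ 3
      + (-1 / 18) * iT a b c ^ 2 * iH d e f ^ 4
      + (-16 / 3) * iH a b c * iP a b c * iP d e f ^ 2
      + (16 / 3) * iH a b c * iP a b c * iT d e f * iP d e f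
      + (-7 / 6) * iH a b c * iP a b c * iT d e f ^ 2
      + (86 / 3) * iH a b c * iP a b c * iH d e f * iP d e f
      + (61 / 36) * iH a b c * iP a b c * iH d e f * iT d e f ^ 2
      + (11 / 3) * iH a b c * iP a b c * iH d e f ^ 2 * iP d e f
      + (32 / 9) * iH a b c * iP a b c * iH d e f ^ 2 * iT d e f
      + (-16 / 3) * iH a b c * iP a b c * iH d e f ^ 3
      + (2 / 3) * iH a b c * iP a b c * iH d e f ^ 4
      + (8 / 27) * iH a b c * iT a b c * iH d e f * iT d e f ^ 2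
      + (16 / 9) * iH a b c * iT a b c * iH d e f ^ 2 * iP d e f
      + (20 / 27) * iH a b c * iT a b c * iH d e f ^ 2 * iT d e f
      + (-2 / 27) * iH a b c * iT a b c ^ 2 * iP d e f ^ 2
      + (32 / 81) * iH a b c * iT a b c ^ 2 * iT d e f * iP d e f
      + (97 / 1296) * iH a b c * iT a b c ^ 2 * iT d e f ^ 2
      + (61 / 36) * iH a b c * iT a b c ^ 2 * iH d e f * iP d e f
      + (8 / 27) * iH a b c * iT a b c ^ 2 * iH d e f * iT d e f
      + (421 / 3888) * iH a b c * iT a b c ^ 2 * iH d e f * iT d e f ^ 2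
      + (1 / 108) * iH a b c * iT a b c ^ 2 * iH d e f ^ 2 * iP d e f
      + (32 / 81) * iH a b c * iT a b c ^ 2 * iH d e f ^ 2 * iT d e f
      + (5 / 54) * iH a b c * iT a b c ^ 2 * iH d e f ^ 3
      + (-1 / 54) * iH a b c * iT a b c ^ 2 * iH d e f ^ 4
      + (-2 / 3) * iH a b c ^ 2 * iH d e f ^ 2 * iP d e f
      + (1 / 3) * iH a b c ^ 2 * iH d e f ^ 4
      + (10 / 3) * iH a b c ^ 2 * iP a b c * iP d e f
      + (-4 / 3) * iH a b c ^ 2 * iP a b c * iP d e f ^ 2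
      + (16 / 9) * iH a b c ^ 2 * iP a b c * iT d e f * iP d e f
      + (-1 / 12) * iH a b c ^ 2 * iP a b c * iT d e f ^ 2
      + (11 / 3) * iH a b c ^ 2 * iP a b c * iH d e f * iP d e f
      + (16 / 9) * iH a b c ^ 2 * iP a b c * iH d e f * iT d e f
      + (1 / 108) * iH a b c ^ 2 * iP a b c * iH d e f * iT d e f ^ 2
      + (-2 / 3) * iH a b c ^ 2 * iP a b c * iH d e f ^ 2
      + (7 / 3) * iH a b c ^ 2 * iP a b c * iH d e f ^ 2 * iP d e f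
      + (8 / 9) * iH a b c ^ 2 * iP a b c * iH d e f ^ 2 * iT d e f
      + (2 / 3) * iH a b c ^ 2 * iP a b c * iH d e f ^ 3
      + (16 / 9) * iH a b c ^ 2 * iT a b c * iP d e f ^ 2
      + (4 / 9) * iH a b c ^ 2 * iT a b c * iT d e f * iP d e f
      + (32 / 9) * iH a b c ^ 2 * iT a b c * iH d e f * iP d e f
      + (20 / 27) * iH a b c ^ 2 * iT a b c * iH d e f * iT d e f
      + (32 / 81) * iH a b c ^ 2 * iT a b c * iH d e f * iT d e f ^ 2
      + (8 / 9) * iH a b c ^ 2 * iT a b c * iH d e f ^ 2 * iP d e f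
      + (46 / 27) * iH a b c ^ 2 * iT a b c * iH d e f ^ 2 * iT d e f
      + (8 / 9) * iH a b c ^ 2 * iT a b c * iH d e f ^ 3
      + (-16 / 9) * iH a b c ^ 3 * iT d e f * iP d e f
      + (1 / 9) * iH a b c ^ 3 * iT d e f ^ 2
      + (-16 / 3) * iH a b c ^ 3 * iH d e f * iP d e f
      + (5 / 54) * iH a b c ^ 3 * iH d e f * iT d e f ^ 2
      + (2 / 3) * iH a b c ^ 3 * iH d e f ^ 2 * iP d e f
      + (8 / 9) * iH a b c ^ 3 * iH d e f ^ 2 * iT d e f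
      + (2) * iH a b c ^ 3 * iH d e f ^ 3
      + (-2 / 3) * iH a b c ^ 4 * iP d e f
      + (2 / 3) * iH a b c ^ 4 * iP d e f ^ 2
      + (-1 / 18) * iH a b c ^ 4 * iT d e f ^ 2
      + (2 / 3) * iH a b c ^ 4 * iH d e f * iP d e f
      + (-1 / 54) * iH a b c ^ 4 * iH d e f * iT d e f ^ 2
      + (1 / 3) * iH a b c ^ 4 * iH d e f ^ 2) := by
  have h := PE.sound 30 9
    (mul (cst 162) (p24 (fun d e f => mul (pow (qN v0 v1 v2 d e f) 2) (pow (pS v0 v1 v2 d e f) 4)) v3 v4 v5))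
    (add (add (add (add (add (add (tm (12960) 0 0 1 2 0 1) (tm (-2592) 0 0 1 4 0 0)) (add (tm (2592) 0 0 2 0 0 2) (add (tm (-6912) 0 0 2 0 1 1) (tm (12096) 0 0 2 0 2 0)))) (add (add (tm (-20736) 0 0 2 1 0 1) (tm (-288) 0 0 2 1 2 0)) (add (tm (-5184) 0 0 2 2 0 1) (add (tm (6912) 0 0 2 2 1 0) (tm (2592) 0 0 2 4 0 0))))) (add (add (add (tm (-6912) 0 1 1 0 0 2) (tm (35136) 0 1 1 0 1 1)) (add (tm (8064) 0 1 1 0 2 0) (add (tm (20736) 0 1 1 1 0 1) (tm (1536) 0 1 1 1 2 0)))) (add (add (tm (6912) 0 1 1 2 0 1) (tm (1728) 0 1 1 2 1 0)) (add (tm (-6912) 0 1 1 3 0 0) (add (tm (12096) 0 2 0 0 0 2) (tm (8064) 0 2 0 0 1 1)))))) (add (add (add (add (tm (1386) 0 2 0 0 2 0) (tm (-4536) 0 2 0 1 0 1)) (add (tm (291) 0 2 0 1 2 0) (add (tm (-324) 0 2 0 2 0 1) (tm (432) 0 2 0 3 0 0)))) (add (add (tm (-216) 0 2 0 4 0 0) (tm (-20736) 1 0 1 0 0 2)) (add (tm (20736) 1 0 1 0 1 1) (add (tm (-4536) 1 0 1 0 2 0) (tm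 (111456) 1 0 1 1 0 1))))) (add (add (add (tm (6588) 1 0 1 1 2 0) (tm (14256) 1 0 1 2 0 1)) (add (tm (13824) 1 0 1 2 1 0) (add (tm (-20736) 1 0 1 3 0 0) (tm (2592) 1 0 1 4 0 0)))) (add (add (tm (1152) 1 1 0 1 2 0) (add (tm (6912) 1 1 0 2 0 1) (tm (2880) 1 1 0 2 1 0))) (add (tm (-288) 1 2 0 0 0 2) (add (tm (1536) 1 2 0 0 1 1) (tm (291) 1 2 0 0 2 0))))))) (add (add (add (add (add (tm (6588) 1 2 0 1 0 1) (tm (1152) 1 2 0 1 1 0)) (add (tm (421) 1 2 0 1 2 0) (add (tm (36) 1 2 0 2 0 1) (tm (1536) 1 2 0 2 1 0)))) (add (add (tm (360) 1 2 0 3 0 0) (tm (-72) 1 2 0 4 0 0)) (add (tm (-2592) 2 0 0 2 0 1) (add (tm (1296) 2 0 0 4 0 0) (tm (12960) 2 0 1 0 0 1))))) (add (add (add (tm (-5184) 2 0 1 0 0 2) (tm (6912) 2 0 1 0 1 1)) (add (tm (-324) 2 0 1 0 2 0) (add (tm (14256) 2 0 1 1 0 1) (tm (6912) 2 0 1 1 1 0)))) (add (add (tm (36) 2 0 1 1 2 0) (tm (-2592) 2 0 1 2 0 0)) (add (tm (9072) 2 0 1 2 0 1) (add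 (tm (3456) 2 0 1 2 1 0) (tm (2592) 2 0 1 3 0 0)))))) (add (add (add (add (tm (6912) 2 1 0 0 0 2) (tm (1728) 2 1 0 0 1 1)) (add (tm (13824) 2 1 0 1 0 1) (add (tm (2880) 2 1 0 1 1 0) (tm (1536) 2 1 0 1 2 0)))) (add (add (tm (3456) 2 1 0 2 0 1) (tm (6624) 2 1 0 2 1 0)) (add (tm (3456) 2 1 0 3 0 0) (add (tm (-6912) 3 0 0 0 1 1) (tm (432) 3 0 0 0 2 0))))) (add (add (add (tm (-20736) 3 0 0 1 0 1) (tm (360) 3 0 0 1 2 0)) (add (tm (2592) 3 0 0 2 0 1) (add (tm (3456) 3 0 0 2 1 0) (tm (7776) 3 0 0 3 0 0)))) (add (add (tm (-2592) 4 0 0 0 0 1) (add (tm (2592) 4 0 0 0 0 2) (tm (-216) 4 0 0 0 2 0))) (add (tm (2592) 4 0 0 1 0 1) (add (tm (-72) 4 0 0 1 2 0) (tm (1296) 4 0 0 2 0 0))))))))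
    (by decide +kernel) ![a, b, c, d, e, f]
  simp only [p24, p4, PE.ev_add, ev_mul, ev_neg, ev_pow, ev_cst, ev_pS, ev_qN, ev_qT, ev_qP, ev_tm, ev_v0, ev_v1, ev_v2,
    ev_v3, ev_v4, ev_v5] at h
  simp only [s24, s4]
  push_cast at h
  linear_combination (1 / 162) * h

end Crest.Agent.R163
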