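import Crest.Agent.R163.KronDef

/-! R163: moments over the symmetric group (generated). -/

set_option autoImplicit false
set_option linter.unusedVariables false
set_option Elab.async false
set_option linter.unusedSimpArgs false

namespace Crest.Agent.R163

open PE in
theorem m4P0 (a b c d e f : ℝ) : s24 (fun d e f => kP a b c d e f * kS a b c d e f ^ 0) d e f =
    24 * ((1) * iP d e f
      + (1) * iP a b c
      + (-2 / 3) * iP a b c * iP d e f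
      + (4 / 3) * iP a b c * iT d e f
      + (2 / 3) * iP a b c * iH d e f
      + (1 / 3) * iP a b c * iH d e f ^ 2
      + (4 / 3) * iT a b c * iP d e f
      + (2 / 3) * iT a b c * iT d e f
      + (4 / 3) * iT a b c * iH d e f
      + (2 / 3) * iH a b c * iP d e f
      + (4 / 3) * iH a b c * iT d e f
      + (2 / 3) * iH a b c * iH d e f
      + (2 / 3) * iH a b c * iH d e f ^ 2
      + (1 / 3) * iH a b c ^ 2 * iP d e f
      + (2 / 3) * iH a b c ^ 2 * iH d e f) := by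
  have h := PE.sound 15 5
    (mul (cst 1) (p24 (fun d e f => mul (qP v0 v1 v2 d e f) (pow (pS v0 v1 v2 d e f) 0)) v3 v4 v5))
    (add (add (add (tm (24) 0 0 0 0 0 1) (add (tm (24) 0 0 1 0 0 0) (tm (-16) 0 0 1 0 0 1))) (add (add (tm (32) 0 0 1 0 1 0) (tm (16) 0 0 1 1 0 0)) (add (tm (8) 0 0 1 2 0 0) (tm (32) 0 1 0 0 0 1)))) (add (add (add (tm (16) 0 1 0 0 1 0) (tm (32) 0 1 0 1 0 0)) (add (tm (16) 1 0 0 0 0 1) (tm (32) 1 0 0 0 1 0))) (add (add (tm (16) 1 0 0 1 0 0) (tm (16) 1 0 0 2 0 0)) (add (tm (8) 2 0 0 0 0 1) (tm (16) 2 0 0 1 0 0)))))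
    (by decide +kernel) ![a, b, c, d, e, f]
  simp only [p24, p4, PE.ev_add, ev_mul, ev_neg, ev_pow, ev_cst, ev_pS, ev_qN, ev_qT, ev_qP, ev_tm, ev_v0, ev_v1, ev_v2,
    ev_v3, ev_v4, ev_v5] at h
  simp only [s24, s4]
  push_cast at h
  linear_combination (1 / 1) * h

open PE in
theorem m4P1 (a b c d e f : ℝ) : s24 (fun d e f => kP a b c d e f * kS a b c d e f ^ 1) d e f =
    24 * ((16 / 3) * iP a b c * iP d e f
      + (2 / 3) * iP a b c * iT d e f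
      + (4 / 3) * iP a b c * iH d e f
      + (2 / 3) * iP a b c * iH d e f * iT d e f
      + (4 / 3) * iP a b c * iH d e f ^ 2
      + (2 / 3) * iT a b c * iP d e f
      + (1 / 3) * iT a b c * iT d e f
      + (4 / 9) * iT a b c * iH d e f * iT d e f
      + (2 / 3) * iT a b c * iH d e f ^ 2
      + (4 / 3) * iH a b c * iP d e f
      + (4 / 9) * iH a b c * iH d e f * iT d e f
      + (2 / 3) * iH a b c * iT a b c * iP d e f
      + (4 / 9) * iH a b c * iT a b c * iT d e f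
      + (4 / 9) * iH a b c * iT a b c * iH d e f
      + (1 / 9) * iH a b c * iT a b c * iH d e f * iT d e f
      + (2 / 9) * iH a b c * iT a b c * iH d e f ^ 2
      + (4 / 3) * iH a b c ^ 2 * iP d e f
      + (2 / 3) * iH a b c ^ 2 * iT d e f
      + (2 / 9) * iH a b c ^ 2 * iH d e f * iT d e f) := by
  have h := PE.sound 18 6
    (mul (cst 3) (p24 (fun d e f => mul (qP v0 v1 v2 d e f) (pow (pS v0 v1 v2 d e f) 1)) v3 v4 v5))
    (add (add (add (add (tm (384) 0 0 1 0 0 1) (tm (48) 0 0 1 0 1 0)) (add (tm (96) 0 0 1 1 0 0) (tm (48) 0 0 1 1 1 0))) (add (add (tm (96) 0 0 1 2 0 0) (tm (48) 0 1 0 0 0 1)) (add (tm (24) 0 1 0 0 1 0) (add (tm (32) 0 1 0 1 1 0) (tm (48) 0 1 0 2 0 0))))) (add (add (add (tm (96) 1 0 0 0 0 1) (tm (32) 1 0 0 1 1 0)) (add (tm (48) 1 1 0 0 0 1) (add (tm (32) 1 1 0 0 1 0) (tm (32) 1 1 0 1 0 0)))) (add (add (tm (8) 1 1 0 1 1 0) (tm (16) 1 1 0 2 0 0)) (add (tm (96) 2 0 0 0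 0 1) (add (tm (48) 2 0 0 0 1 0) (tm (16) 2 0 0 1 1 0))))))
    (by decide +kernel) ![a, b, c, d, e, f]
  simp only [p24, p4, PE.ev_add, ev_mul, ev_neg, ev_pow, ev_cst, ev_pS, ev_qN, ev_qT, ev_qP, ev_tm, ev_v0, ev_v1, ev_v2,
    ev_v3, ev_v4, ev_v5] at h
  simp only [s24, s4]
  push_cast at h
  linear_combination (1 / 3) * h

open PE in
theorem m4P2 (a b c d e f : ℝ) : s24 (fun d e f => kP a b c d e f * kS a b c d e f ^ 2) d e f =
    24 * ((2 / 3) * iP a b c * iP d e f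
      + (7 / 18) * iP a b c * iT d e f ^ 2
      + (16 / 9) * iP a b c * iH d e f * iT d e f
      + (2 / 3) * iP a b c * iH d e f ^ 2
      + (2 / 3) * iP a b c * iH d e f ^ 3
      + (1 / 18) * iT a b c * iT d e f ^ 2
      + (2 / 3) * iT a b c * iH d e f * iP d e f
      + (2 / 9) * iT a b c * iH d e f * iT d e f
      + (7 / 18) * iT a b c ^ 2 * iP d e f
      + (1 / 18) * iT a b c ^ 2 * iT d e f
      + (1 / 288) * iT a b c ^ 2 * iT d e f ^ 2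
      + (1 / 72) * iT a b c ^ 2 * iH d e f * iP d e f
      + (1 / 18) * iT a b c ^ 2 * iH d e f * iT d e f
      + (1 / 18) * iT a b c ^ 2 * iH d e f ^ 2
      + (1 / 36) * iT a b c ^ 2 * iH d e f ^ 3
      + (1 / 3) * iH a b c * iH d e f * iP d e f
      + (2 / 3) * iH a b c * iP a b c * iT d e f
      + (1 / 72) * iH a b c * iP a b c * iT d e f ^ 2
      + (1 / 3) * iH a b c * iP a b c * iH d e f
      + (1 / 2) * iH a b c * iP a b c * iH d e f * iP d e f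
      + (10 / 9) * iH a b c * iP a b c * iH d e f * iT d e f
      + (2 / 3) * iH a b c * iP a b c * iH d e f ^ 2
      + (16 / 9) * iH a b c * iT a b c * iP d e f
      + (2 / 9) * iH a b c * iT a b c * iT d e f
      + (1 / 18) * iH a b c * iT a b c * iT d e f ^ 2
      + (10 / 9) * iH a b c * iT a b c * iH d e f * iP d e f
      + (26 / 27) * iH a b c * iT a b c * iH d e f * iT d e f
      + (4 / 9) * iH a b c * iT a b c * iH d e f ^ 2
      + (2 / 3) * iH a b c ^ 2 * iP d e f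
      + (1 / 18) * iH a b c ^ 2 * iT d e f ^ 2
      + (2 / 3) * iH a b c ^ 2 * iH d e f * iP d e f
      + (4 / 9) * iH a b c ^ 2 * iH d e f * iT d e f
      + (2 / 3) * iH a b c ^ 3 * iP d e f
      + (1 / 36) * iH a b c ^ 3 * iT d e f ^ 2) := by
  have h := PE.sound 23 7
    (mul (cst 36) (p24 (fun d e f => mul (qP v0 v1 v2 d e f) (pow (pS v0 v1 v2 d e f) 2)) v3 v4 v5))
    (add (add (add (add (add (tm (576) 0 0 1 0 0 1) (tm (336) 0 0 1 0 2 0)) (add (tm (1536) 0 0 1 1 1 0) (tm (576) 0 0 1 2 0 0))) (add (add (tm (576) 0 0 1 3 0 0) (tm (48) 0 1 0 0 2 0)) (add (tm (576) 0 1 0 1 0 1) (tm (192) 0 1 0 1 1 0)))) (add (add (add (tm (336) 0 2 0 0 0 1) (tm (48) 0 2 0 0 1 0)) (add (tm (3) 0 2 0 0 2 0) (tm (12) 0 2 0 1 0 1))) (add (add (tm (48) 0 2 0 1 1 0) (tm (48) 0 2 0 2 0 0)) (add (tm (24) 0 2 0 3 0 0) (add (tm (288) 1 0 0 1 0 1) (tm (576) 1 0 1 0 1 0)))))) (add (add (add (add (tm (12) 1 0 1 0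 2 0) (tm (288) 1 0 1 1 0 0)) (add (tm (432) 1 0 1 1 0 1) (tm (960) 1 0 1 1 1 0))) (add (add (tm (576) 1 0 1 2 0 0) (tm (1536) 1 1 0 0 0 1)) (add (tm (192) 1 1 0 0 1 0) (tm (48) 1 1 0 0 2 0)))) (add (add (add (tm (960) 1 1 0 1 0 1) (tm (832) 1 1 0 1 1 0)) (add (tm (384) 1 1 0 2 0 0) (tm (576) 2 0 0 0 0 1))) (add (add (tm (48) 2 0 0 0 2 0) (tm (576) 2 0 0 1 0 1)) (add (tm (384) 2 0 0 1 1 0) (add (tm (576) 3 0 0 0 0 1) (tm (24) 3 0 0 0 2 0)))))))
    (by decide +kernel) ![a, b, c, d, e, f]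
  simp only [p24, p4, PE.ev_add, ev_mul, ev_neg, ev_pow, ev_cst, ev_pS, ev_qN, ev_qT, ev_qP, ev_tm, ev_v0, ev_v1, ev_v2,
    ev_v3, ev_v4, ev_v5] at h
  simp only [s24, s4]
  push_cast at h
  linear_combination (1 / 36) * h

open PE in
theorem m4P3 (a b c d e f : ℝ) : s24 (fun d e f => kP a b c d e f * kS a b c d e f ^ 3) d e f =
    24 * ((10 / 9) * iP a b c * iT d e f * iP d e f
      + (5 / 18) * iP a b c * iT d e f ^ 2
      + (2 / 3) * iP a b c * iH d e f * iP d e f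
      + (2 / 9) * iP a b c * iH d e f ^ 2 * iT d e f
      + (1 / 6) * iT a b c * iT d e f * iP d e f
      + (10 / 9) * iT a b c * iP a b c * iP d e f
      + (1 / 6) * iT a b c * iP a b c * iT d e f
      + (-1 / 9) * iT a b c * iP a b c * iT d e f * iP d e f
      + (1 / 9) * iT a b c * iP a b c * iT d e f ^ 2
      + (2 / 9) * iT a b c * iP a b c * iH d e f * iP d e f
      + (13 / 27) * iT a b c * iP a b c * iH d e f * iT d e f
      + (-2 / 9) * iT a b c * iP a b c * iH d e f ^ 2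
      + (7 / 54) * iT a b c * iP a b c * iH d e f ^ 2 * iT d e f
      + (2 / 9) * iT a b c * iP a b c * iH d e f ^ 3
      + (5 / 18) * iT a b c ^ 2 * iP d e f
      + (1 / 9) * iT a b c ^ 2 * iT d e f * iP d e f
      + (1 / 108) * iT a b c ^ 2 * iT d e f ^ 2
      + (5 / 6) * iT a b c ^ 2 * iH d e f * iP d e f
      + (13 / 54) * iT a b c ^ 2 * iH d e f * iT d e f
      + (-1 / 18) * iT a b c ^ 2 * iH d e f ^ 2
      + (1 / 18) * iT a b c ^ 2 * iH d e f ^ 2 * iT d e f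
      + (-1 / 18) * iT a b c ^ 2 * iH d e f ^ 3
      + (2 / 3) * iH a b c * iP a b c * iP d e f
      + (2 / 9) * iH a b c * iP a b c * iT d e f * iP d e f
      + (5 / 6) * iH a b c * iP a b c * iT d e f ^ 2
      + (8 / 3) * iH a b c * iP a b c * iH d e f * iP d e f
      + (4 / 3) * iH a b c * iP a b c * iH d e f * iT d e f
      + (2 / 3) * iH a b c * iP a b c * iH d e f ^ 2
      + (2 / 3) * iH a b c * iP a b c * iH d e f ^ 2 * iT d e f
      + (2 / 3) * iH a b c * iP a b c * iH d e f ^ 3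
      + (13 / 27) * iH a b c * iT a b c * iT d e f * iP d e f
      + (13 / 54) * iH a b c * iT a b c * iT d e f ^ 2
      + (4 / 3) * iH a b c * iT a b c * iH d e f * iP d e f
      + (10 / 27) * iH a b c * iT a b c * iH d e f * iT d e f
      + (1 / 3) * iH a b c * iT a b c * iH d e f ^ 2 * iT d e f
      + (2 / 9) * iH a b c * iT a b c * iH d e f ^ 3
      + (-2 / 9) * iH a b c ^ 2 * iT d e f * iP d e f
      + (-1 / 18) * iH a b c ^ 2 * iT d e f ^ 2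
      + (2 / 3) * iH a b c ^ 2 * iH d e f * iP d e f
      + (2 / 9) * iH a b c ^ 2 * iH d e f ^ 2 * iT d e f
      + (2 / 9) * iH a b c ^ 2 * iT a b c * iP d e f
      + (7 / 54) * iH a b c ^ 2 * iT a b c * iT d e f * iP d e f
      + (1 / 18) * iH a b c ^ 2 * iT a b c * iT d e f ^ 2
      + (2 / 3) * iH a b c ^ 2 * iT a b c * iH d e f * iP d e f
      + (1 / 3) * iH a b c ^ 2 * iT a b c * iH d e f * iT d e f
      + (2 / 9) * iH a b c ^ 2 * iT a b c * iH d e f ^ 2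
      + (1 / 27) * iH a b c ^ 2 * iT a b c * iH d e f ^ 2 * iT d e f
      + (2 / 9) * iH a b c ^ 3 * iT d e f * iP d e f
      + (-1 / 18) * iH a b c ^ 3 * iT d e f ^ 2
      + (2 / 3) * iH a b c ^ 3 * iH d e f * iP d e f
      + (2 / 9) * iH a b c ^ 3 * iH d e f * iT d e f) := by
  have h := PE.sound 23 8
    (mul (cst 9) (p24 (fun d e f => mul (qP v0 v1 v2 d e f) (pow (pS v0 v1 v2 d e f) 3)) v3 v4 v5))
    (add (add (add (add (add (tm (240) 0 0 1 0 1 1) (add (tm (60) 0 0 1 0 2 0) (tm (144) 0 0 1 1 0 1))) (add (tm (48) 0 0 1 2 1 0) (add (tm (36) 0 1 0 0 1 1) (tm (240) 0 1 1 0 0 1)))) (add (add (tm (36) 0 1 1 0 1 0) (add (tm (-24) 0 1 1 0 1 1) (tm (24) 0 1 1 0 2 0))) (add (tm (48) 0 1 1 1 0 1) (add (tm (104) 0 1 1 1 1 0) (tm (-48) 0 1 1 2 0 0))))) (add (add (add (tm (28) 0 1 1 2 1 0) (add (tm (48) 0 1 1 3 0 0) (tm (60) 0 2 0 0 0 1))) (add (tm (24) 0 2 0 0 1 1) (add (tm (2) 0 2 0 0 2 0) (tm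 (180) 0 2 0 1 0 1)))) (add (add (tm (52) 0 2 0 1 1 0) (add (tm (-12) 0 2 0 2 0 0) (tm (12) 0 2 0 2 1 0))) (add (add (tm (-12) 0 2 0 3 0 0) (tm (144) 1 0 1 0 0 1)) (add (tm (48) 1 0 1 0 1 1) (tm (180) 1 0 1 0 2 0)))))) (add (add (add (add (tm (576) 1 0 1 1 0 1) (add (tm (288) 1 0 1 1 1 0) (tm (144) 1 0 1 2 0 0))) (add (tm (144) 1 0 1 2 1 0) (add (tm (144) 1 0 1 3 0 0) (tm (104) 1 1 0 0 1 1)))) (add (add (tm (52) 1 1 0 0 2 0) (add (tm (288) 1 1 0 1 0 1) (tm (80) 1 1 0 1 1 0))) (add (add (tm (72) 1 1 0 2 1 0) (tm (48) 1 1 0 3 0 0)) (add (tm (-48) 2 0 0 0 1 1) (tm (-12) 2 0 0 0 2 0))))) (add (add (add (tm (144) 2 0 0 1 0 1) (add (tm (48) 2 0 0 2 1 0) (tm (48) 2 1 0 0 0 1))) (add (tm (28) 2 1 0 0 1 1) (add (tm (12) 2 1 0 0 2 0) (tm (144) 2 1 0 1 0 1)))) (add (add (tm (72) 2 1 0 1 1 0) (add (tm (48) 2 1 0 2 0 0) (tm (8) 2 1 0 2 1 0))) (add (add (tm (48) 3 0 0 0 1 1) (tm (-12) 3 0 0 0 2 0)) (add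 (tm (144) 3 0 0 1 0 1) (tm (48) 3 0 0 1 1 0)))))))
    (by decide +kernel) ![a, b, c, d, e, f]
  simp only [p24, p4, PE.ev_add, ev_mul, ev_neg, ev_pow, ev_cst, ev_pS, ev_qN, ev_qT, ev_qP, ev_tm, ev_v0, ev_v1, ev_v2,
    ev_v3, ev_v4, ev_v5] at h
  simp only [s24, s4]
  push_cast at h
  linear_combination (1 / 9) * h

open PE in
theorem m4P4 (a b c d e f : ℝ) : s24 (fun d e f => kP a b c d e f * kS a b c d e f ^ 4) d e f =
    24 * ((10 / 3) * iP a b c * iP d e f ^ 2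
      + (-2 / 3) * iP a b c * iH d e f ^ 2 * iP d e f
      + (10 / 3) * iP a b c ^ 2 * iP d e f
      + (-2 / 3) * iP a b c ^ 2 * iP d e f ^ 2
      + (-8 / 9) * iP a b c ^ 2 * iT d e f * iP d e f
      + (7 / 18) * iP a b c ^ 2 * iT d e f ^ 2
      + (-2 / 3) * iP a b c ^ 2 * iH d e f * iP d e f
      + (5 / 54) * iP a b c ^ 2 * iH d e f * iT d e f ^ 2
      + (-2 / 3) * iP a b c ^ 2 * iH d e f ^ 2
      + (8 / 9) * iP a b c ^ 2 * iH d e f ^ 2 * iT d e f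
      + (-8 / 9) * iT a b c * iP a b c * iP d e f ^ 2
      + (44 / 27) * iT a b c * iP a b c * iT d e f * iP d e f
      + (7 / 27) * iT a b c * iP a b c * iT d e f ^ 2
      + (4) * iT a b c * iP a b c * iH d e f * iP d e f
      + (8 / 27) * iT a b c * iP a b c * iH d e f * iT d e f
      + (7 / 27) * iT a b c * iP a b c * iH d e f * iT d e f ^ 2
      + (4 / 9) * iT a b c * iP a b c * iH d e f ^ 2 * iP d e f
      + (4 / 9) * iT a b c * iP a b c * iH d e f ^ 2 * iT d e f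
      + (-8 / 9) * iT a b c * iP a b c * iH d e f ^ 3
      + (7 / 18) * iT a b c ^ 2 * iP d e f ^ 2
      + (7 / 27) * iT a b c ^ 2 * iT d e f * iP d e f
      + (91 / 864) * iT a b c ^ 2 * iT d e f ^ 2
      + (-1 / 24) * iT a b c ^ 2 * iH d e f * iP d e f
      + (199 / 2592) * iT a b c ^ 2 * iH d e f * iT d e f ^ 2
      + (1 / 24) * iT a b c ^ 2 * iH d e f ^ 2 * iP d e f
      + (1 / 9) * iT a b c ^ 2 * iH d e f ^ 2 * iT d e f
      + (-1 / 36) * iT a b c ^ 2 * iH d e f ^ 3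
      + (-1 / 36) * iT a b c ^ 2 * iH d e f ^ 4
      + (-2 / 3) * iH a b c * iP a b c * iP d e f ^ 2
      + (4) * iH a b c * iP a b c * iT d e f * iP d e f
      + (-1 / 24) * iH a b c * iP a b c * iT d e f ^ 2
      + (11 / 6) * iH a b c * iP a b c * iH d e f * iP d e f
      + (35 / 72) * iH a b c * iP a b c * iH d e f * iT d e f ^ 2
      + (5 / 6) * iH a b c * iP a b c * iH d e f ^ 2 * iP d e f
      + (4 / 9) * iH a b c * iP a b c * iH d e f ^ 2 * iT d e f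
      + (1 / 3) * iH a b c * iP a b c * iH d e f ^ 3
      + (1 / 3) * iH a b c * iP a b c * iH d e f ^ 4
      + (8 / 27) * iH a b c * iT a b c * iT d e f * iP d e f
      + (11 / 81) * iH a b c * iT a b c * iH d e f * iT d e f ^ 2
      + (4 / 9) * iH a b c * iT a b c * iH d e f ^ 2 * iP d e f
      + (4 / 27) * iH a b c * iT a b c * iH d e f ^ 2 * iT d e f
      + (5 / 54) * iH a b c * iT a b c ^ 2 * iP d e f ^ 2
      + (7 / 27) * iH a b c * iT a b c ^ 2 * iT d e f * iP d e f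
      + (199 / 2592) * iH a b c * iT a b c ^ 2 * iT d e f ^ 2
      + (35 / 72) * iH a b c * iT a b c ^ 2 * iH d e f * iP d e f
      + (11 / 81) * iH a b c * iT a b c ^ 2 * iH d e f * iT d e f
      + (23 / 2592) * iH a b c * iT a b c ^ 2 * iH d e f * iT d e f ^ 2
      + (17 / 216) * iH a b c * iT a b c ^ 2 * iH d e f ^ 2 * iP d e f
      + (4 / 81) * iH a b c * iT a b c ^ 2 * iH d e f ^ 2 * iT d e f
      + (-1 / 108) * iH a b c * iT a b c ^ 2 * iH d e f ^ 3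
      + (1 / 108) * iH a b c * iT a b c ^ 2 * iH d e f ^ 4
      + (-2 / 3) * iH a b c ^ 2 * iP d e f ^ 2
      + (1 / 3) * iH a b c ^ 2 * iH d e f ^ 2 * iP d e f
      + (-2 / 3) * iH a b c ^ 2 * iP a b c * iP d e f
      + (4 / 9) * iH a b c ^ 2 * iP a b c * iT d e f * iP d e f
      + (1 / 24) * iH a b c ^ 2 * iP a b c * iT d e f ^ 2
      + (5 / 6) * iH a b c ^ 2 * iP a b c * iH d e f * iP d e f
      + (4 / 9) * iH a b c ^ 2 * iP a b c * iH d e f * iT d e f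
      + (17 / 216) * iH a b c ^ 2 * iP a b c * iH d e f * iT d e f ^ 2
      + (1 / 3) * iH a b c ^ 2 * iP a b c * iH d e f ^ 2
      + (1 / 6) * iH a b c ^ 2 * iP a b c * iH d e f ^ 2 * iP d e f
      + (4 / 9) * iH a b c ^ 2 * iP a b c * iH d e f ^ 2 * iT d e f
      + (1 / 3) * iH a b c ^ 2 * iP a b c * iH d e f ^ 3
      + (8 / 9) * iH a b c ^ 2 * iT a b c * iP d e f ^ 2
      + (4 / 9) * iH a b c ^ 2 * iT a b c * iT d e f * iP d e f
      + (1 / 9) * iH a b c ^ 2 * iT a b c * iT d e f ^ 2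
      + (4 / 9) * iH a b c ^ 2 * iT a b c * iH d e f * iP d e f
      + (4 / 27) * iH a b c ^ 2 * iT a b c * iH d e f * iT d e f
      + (4 / 81) * iH a b c ^ 2 * iT a b c * iH d e f * iT d e f ^ 2
      + (4 / 9) * iH a b c ^ 2 * iT a b c * iH d e f ^ 2 * iP d e f
      + (14 / 27) * iH a b c ^ 2 * iT a b c * iH d e f ^ 2 * iT d e f
      + (4 / 9) * iH a b c ^ 2 * iT a b c * iH d e f ^ 3
      + (-8 / 9) * iH a b c ^ 3 * iT d e f * iP d e f
      + (-1 / 36) * iH a b c ^ 3 * iT d e f ^ 2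
      + (1 / 3) * iH a b c ^ 3 * iH d e f * iP d e f
      + (-1 / 108) * iH a b c ^ 3 * iH d e f * iT d e f ^ 2
      + (1 / 3) * iH a b c ^ 3 * iH d e f ^ 2 * iP d e f
      + (4 / 9) * iH a b c ^ 3 * iH d e f ^ 2 * iT d e f
      + (-1 / 36) * iH a b c ^ 4 * iT d e f ^ 2
      + (1 / 3) * iH a b c ^ 4 * iH d e f * iP d e f
      + (1 / 108) * iH a b c ^ 4 * iH d e f * iT d e f ^ 2) := by
  have h := PE.sound 28 9
    (mul (cst 108) (p24 (fun d e f => mul (qP v0 v1 v2 d e f) (pow (pS v0 v1 v2 d e f) 4)) v3 v4 v5))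
    (add (add (add (add (add (add (tm (8640) 0 0 1 0 0 2) (tm (-1728) 0 0 1 2 0 1)) (add (tm (8640) 0 0 2 0 0 1) (add (tm (-1728) 0 0 2 0 0 2) (tm (-2304) 0 0 2 0 1 1)))) (add (add (tm (1008) 0 0 2 0 2 0) (tm (-1728) 0 0 2 1 0 1)) (add (tm (240) 0 0 2 1 2 0) (add (tm (-1728) 0 0 2 2 0 0) (tm (2304) 0 0 2 2 1 0))))) (add (add (add (tm (-2304) 0 1 1 0 0 2) (tm (4224) 0 1 1 0 1 1)) (add (tm (672) 0 1 1 0 2 0) (add (tm (10368) 0 1 1 1 0 1) (tm (768) 0 1 1 1 1 0)))) (add (add (tm (672) 0 1 1 1 2 0) (tm (1152) 0 1 1 2 0 1)) (add (tm (1152) 0 1 1 2 1 0) (add (tm (-2304) 0 1 1 3 0 0) (tm (1008) 0 2 0 0 0 2)))))) (add (add (add (add (tm (672) 0 2 0 0 1 1) (tm (273) 0 2 0 0 2 0)) (add (tm (-108) 0 2 0 1 0 1) (add (tm (199) 0 2 0 1 2 0) (tm (108) 0 2 0 2 0 1)))) (add (add (tm (288) 0 2 0 2 1 0) (tm (-72) 0 2 0 3 0 0)) (add (tm (-72) 0 2 0 4 0 0) (add (tm (-1728) 1 0 1 0 0 2) (tm (10368) 1 0 1 0 1 1)))))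 (add (add (add (tm (-108) 1 0 1 0 2 0) (tm (4752) 1 0 1 1 0 1)) (add (tm (1260) 1 0 1 1 2 0) (add (tm (2160) 1 0 1 2 0 1) (tm (1152) 1 0 1 2 1 0)))) (add (add (tm (864) 1 0 1 3 0 0) (tm (864) 1 0 1 4 0 0)) (add (tm (768) 1 1 0 0 1 1) (add (tm (352) 1 1 0 1 2 0) (tm (1152) 1 1 0 2 0 1))))))) (add (add (add (add (add (tm (384) 1 1 0 2 1 0) (tm (240) 1 2 0 0 0 2)) (add (tm (672) 1 2 0 0 1 1) (add (tm (199) 1 2 0 0 2 0) (tm (1260) 1 2 0 1 0 1)))) (add (add (tm (352) 1 2 0 1 1 0) (tm (23) 1 2 0 1 2 0)) (add (tm (204) 1 2 0 2 0 1) (add (tm (128) 1 2 0 2 1 0) (tm (-24) 1 2 0 3 0 0))))) (add (add (add (tm (24) 1 2 0 4 0 0) (tm (-1728) 2 0 0 0 0 2)) (add (tm (864) 2 0 0 2 0 1) (add (tm (-1728) 2 0 1 0 0 1) (tm (1152) 2 0 1 0 1 1)))) (add (add (tm (108) 2 0 1 0 2 0) (tm (2160) 2 0 1 1 0 1)) (add (tm (1152) 2 0 1 1 1 0) (add (tm (204) 2 0 1 1 2 0) (tm (864) 2 0 1 2 0 0)))))) (add (add (add (add (tm (432)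 2 0 1 2 0 1) (tm (1152) 2 0 1 2 1 0)) (add (tm (864) 2 0 1 3 0 0) (add (tm (2304) 2 1 0 0 0 2) (tm (1152) 2 1 0 0 1 1)))) (add (add (tm (288) 2 1 0 0 2 0) (tm (1152) 2 1 0 1 0 1)) (add (tm (384) 2 1 0 1 1 0) (add (tm (128) 2 1 0 1 2 0) (tm (1152) 2 1 0 2 0 1))))) (add (add (add (tm (1344) 2 1 0 2 1 0) (tm (1152) 2 1 0 3 0 0)) (add (tm (-2304) 3 0 0 0 1 1) (add (tm (-72) 3 0 0 0 2 0) (tm (864) 3 0 0 1 0 1)))) (add (add (tm (-24) 3 0 0 1 2 0) (add (tm (864) 3 0 0 2 0 1) (tm (1152) 3 0 0 2 1 0))) (add (tm (-72) 4 0 0 0 2 0) (add (tm (864) 4 0 0 1 0 1) (tm (24) 4 0 0 1 2 0))))))))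
    (by decide +kernel) ![a, b, c, d, e, f]
  simp only [p24, p4, PE.ev_add, ev_mul, ev_neg, ev_pow, ev_cst, ev_pS, ev_qN, ev_qT, ev_qP, ev_tm, ev_v0, ev_v1, ev_v2,
    ev_v3, ev_v4, ev_v5] at h
  simp only [s24, s4]
  push_cast at h
  linear_combination (1 / 108) * h

open PE in
theorem m4NT0 (a b c d e f : ℝ) : s24 (fun d e f => kN a b c d e f * kT a b c d e f * kS a b c d e f ^ 0) d e f =
    24 * ((1) * iH d e f * iT d e f
      + (28) * iP a b c * iP d e f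
      + (18) * iP a b c * iT d e f
      + (16) * iP a b c * iH d e f
      + (14 / 3) * iP a b c * iH d e f * iT d e f
      + (4) * iP a b c * iH d e f ^ 2
      + (18) * iT a b c * iP d e f
      + (6) * iT a b c * iT d e f
      + (3) * iT a b c * iH d e f
      + (3) * iT a b c * iH d e f * iT d e f
      + (3) * iT a b c * iH d e f ^ 2
      + (16) * iH a b c * iP d e f
      + (3) * iH a b c * iT d e f
      + (13 / 3) * iH a b c * iH d e f * iT d e f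
      + (4) * iH a b c * iH d e f ^ 2
      + (1) * iH a b c * iT a b c
      + (14 / 3) * iH a b c * iT a b c * iP d e f
      + (3) * iH a b c * iT a b c * iT d e f
      + (13 / 3) * iH a b c * iT a b c * iH d e f
      + (4 / 9) * iH a b c * iT a b c * iH d e f * iT d e f
      + (2 / 3) * iH a b c * iT a b c * iH d e f ^ 2
      + (4) * iH a b c ^ 2 * iP d e f
      + (3) * iH a b c ^ 2 * iT d e f
      + (4) * iH a b c ^ 2 * iH d e f
      + (2 / 3) * iH a b c ^ 2 * iH d e f * iT d e f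
      + (4) * iH a b c ^ 2 * iH d e f ^ 2) := by
  have h := PE.sound 21 6
    (mul (cst 3) (p24 (fun d e f => mul (mul (qN v0 v1 v2 d e f) (qT v0 v1 v2 d e f)) (pow (pS v0 v1 v2 d e f) 0)) v3 v4 v5))
    (add (add (add (add (tm (72) 0 0 0 1 1 0) (add (tm (2016) 0 0 1 0 0 1) (tm (1296) 0 0 1 0 1 0))) (add (tm (1152) 0 0 1 1 0 0) (add (tm (336) 0 0 1 1 1 0) (tm (288) 0 0 1 2 0 0)))) (add (add (tm (1296) 0 1 0 0 0 1) (add (tm (432) 0 1 0 0 1 0) (tm (216) 0 1 0 1 0 0))) (add (add (tm (216) 0 1 0 1 1 0) (tm (216) 0 1 0 2 0 0)) (add (tm (1152) 1 0 0 0 0 1) (tm (216) 1 0 0 0 1 0))))) (add (add (add (tm (312) 1 0 0 1 1 0) (add (tm (288) 1 0 0 2 0 0) (tm (72) 1 1 0 0 0 0))) (add (tm (336) 1 1 0 0 0 1) (add (tm (216) 1 1 0 0 1 0) (tm (312) 1 1 0 1 0 0)))) (add (add (tm (32) 1 1 0 1 1 0) (add (tm (48) 1 1 0 2 0 0) (tm (288) 2 0 0 0 0 1))) (add (add (tm (216) 2 0 0 0 1 0) (tm (288) 2 0 0 1 0 0)) (add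 (tm (48) 2 0 0 1 1 0) (tm (288) 2 0 0 2 0 0))))))
    (by decide +kernel) ![a, b, c, d, e, f]
  simp only [p24, p4, PE.ev_add, ev_mul, ev_neg, ev_pow, ev_cst, ev_pS, ev_qN, ev_qT, ev_qP, ev_tm, ev_v0, ev_v1, ev_v2,
    ev_v3, ev_v4, ev_v5] at h
  simp only [s24, s4]
  push_cast at h
  linear_combination (1 / 3) * h

open PE in
theorem m4NT1 (a b c d e f : ℝ) : s24 (fun d e f => kN a b c d e f * kT a b c d e f * kS a b c d e f ^ 1) d e f =
    24 * ((24) * iP a b c * iP d e f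
      + (4) * iP a b c * iT d e f
      + (-1 / 6) * iP a b c * iT d e f ^ 2
      + (26) * iP a b c * iH d e f * iP d e f
      + (16) * iP a b c * iH d e f * iT d e f
      + (12) * iP a b c * iH d e f ^ 2
      + (4) * iT a b c * iP d e f
      + (1 / 2) * iT a b c * iT d e f ^ 2
      + (4) * iT a b c * iH d e f * iP d e f
      + (13 / 3) * iT a b c * iH d e f * iT d e f
      + (1) * iT a b c * iH d e f ^ 2
      + (1) * iT a b c * iH d e f ^ 3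
      + (-1 / 6) * iT a b c ^ 2 * iP d e f
      + (1 / 2) * iT a b c ^ 2 * iT d e f
      + (1 / 48) * iT a b c ^ 2 * iT d e f ^ 2
      + (2 / 3) * iT a b c ^ 2 * iH d e f
      + (1 / 4) * iT a b c ^ 2 * iH d e f * iP d e f
      + (1 / 2) * iT a b c ^ 2 * iH d e f * iT d e f
      + (5 / 6) * iT a b c ^ 2 * iH d e f ^ 2
      + (2 / 3) * iH a b c * iT d e f ^ 2
      + (4) * iH a b c * iH d e f * iP d e f
      + (5 / 3) * iH a b c * iH d e f * iT d e f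
      + (26) * iH a b c * iP a b c * iP d e f
      + (4) * iH a b c * iP a b c * iT d e f
      + (1 / 4) * iH a b c * iP a b c * iT d e f ^ 2
      + (4) * iH a b c * iP a b c * iH d e f
      + (3) * iH a b c * iP a b c * iH d e f * iP d e f
      + (8 / 3) * iH a b c * iP a b c * iH d e f * iT d e f
      + (2) * iH a b c * iP a b c * iH d e f ^ 2
      + (16) * iH a b c * iT a b c * iP d e f
      + (13 / 3) * iH a b c * iT a b c * iT d e f
      + (1 / 2) * iH a b c * iT a b c * iT d e f ^ 2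
      + (5 / 3) * iH a b c * iT a b c * iH d e f
      + (8 / 3) * iH a b c * iT a b c * iH d e f * iP d e f
      + (58 / 9) * iH a b c * iT a b c * iH d e f * iT d e f
      + (5) * iH a b c * iT a b c * iH d e f ^ 2
      + (2 / 3) * iH a b c * iT a b c * iH d e f ^ 3
      + (12) * iH a b c ^ 2 * iP d e f
      + (1) * iH a b c ^ 2 * iT d e f
      + (5 / 6) * iH a b c ^ 2 * iT d e f ^ 2
      + (2) * iH a b c ^ 2 * iH d e f * iP d e f
      + (5) * iH a b c ^ 2 * iH d e f * iT d e f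
      + (1) * iH a b c ^ 3 * iT d e f
      + (2 / 3) * iH a b c ^ 3 * iH d e f * iT d e f) := by
  have h := PE.sound 24 7
    (mul (cst 6) (p24 (fun d e f => mul (mul (qN v0 v1 v2 d e f) (qT v0 v1 v2 d e f)) (pow (pS v0 v1 v2 d e f) 1)) v3 v4 v5))
    (add (add (add (add (add (tm (3456) 0 0 1 0 0 1) (tm (576) 0 0 1 0 1 0)) (add (tm (-24) 0 0 1 0 2 0) (add (tm (3744) 0 0 1 1 0 1) (tm (2304) 0 0 1 1 1 0)))) (add (add (tm (1728) 0 0 1 2 0 0) (add (tm (576) 0 1 0 0 0 1) (tm (72) 0 1 0 0 2 0))) (add (tm (576) 0 1 0 1 0 1) (add (tm (624) 0 1 0 1 1 0) (tm (144) 0 1 0 2 0 0))))) (add (add (add (tm (144) 0 1 0 3 0 0) (tm (-24) 0 2 0 0 0 1)) (add (tm (72) 0 2 0 0 1 0) (add (tm (3) 0 2 0 0 2 0) (tm (96) 0 2 0 1 0 0)))) (add (add (tm (36) 0 2 0 1 0 1) (add (tm (72) 0 2 0 1 1 0) (tm (120) 0 2 0 2 0 0))) (add (tm (96) 1 0 0 0 2 0) (add (tm (576) 1 0 0 1 0 1) (tm (240) 1 0 0 1 1 0)))))) (add (add (add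 (add (tm (3744) 1 0 1 0 0 1) (tm (576) 1 0 1 0 1 0)) (add (tm (36) 1 0 1 0 2 0) (add (tm (576) 1 0 1 1 0 0) (tm (432) 1 0 1 1 0 1)))) (add (add (tm (384) 1 0 1 1 1 0) (add (tm (288) 1 0 1 2 0 0) (tm (2304) 1 1 0 0 0 1))) (add (tm (624) 1 1 0 0 1 0) (add (tm (72) 1 1 0 0 2 0) (tm (240) 1 1 0 1 0 0))))) (add (add (add (tm (384) 1 1 0 1 0 1) (tm (928) 1 1 0 1 1 0)) (add (tm (720) 1 1 0 2 0 0) (add (tm (96) 1 1 0 3 0 0) (tm (1728) 2 0 0 0 0 1)))) (add (add (tm (144) 2 0 0 0 1 0) (add (tm (120) 2 0 0 0 2 0) (tm (288) 2 0 0 1 0 1))) (add (tm (720) 2 0 0 1 1 0) (add (tm (144) 3 0 0 0 1 0) (tm (96) 3 0 0 1 1 0)))))))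
    (by decide +kernel) ![a, b, c, d, e, f]
  simp only [p24, p4, PE.ev_add, ev_mul, ev_neg, ev_pow, ev_cst, ev_pS, ev_qN, ev_qT, ev_qP, ev_tm, ev_v0, ev_v1, ev_v2,
    ev_v3, ev_v4, ev_v5] at h
  simp only [s24, s4]
  push_cast at h
  linear_combination (1 / 6) * h

open PE in
theorem m4NT2 (a b c d e f : ℝ) : s24 (fun d e f => kN a b c d e f * kT a b c d e f * kS a b c d e f ^ 2) d e f =
    24 * ((2) * iP a b c * iT d e f * iP d e f
      + (11 / 3) * iP a b c * iT d e f ^ 2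
      + (8) * iP a b c * iH d e f * iP d e f
      + (14 / 3) * iP a b c * iH d e f * iT d e f
      + (16 / 3) * iP a b c * iH d e f ^ 2 * iT d e f
      + (4) * iP a b c * iH d e f ^ 3
      + (4 / 3) * iT a b c * iT d e f * iP d e f
      + (1 / 3) * iT a b c * iT d e f ^ 2
      + (2) * iT a b c * iH d e f * iP d e f
      + (2 / 3) * iT a b c * iH d e f ^ 2 * iT d e f
      + (2) * iT a b c * iP a b c * iP d e f
      + (4 / 3) * iT a b c * iP a b c * iT d e f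
      + (2 / 3) * iT a b c * iP a b c * iT d e f * iP d e f
      + (14 / 3) * iT a b c * iP a b c * iH d e f * iP d e f
      + (20 / 9) * iT a b c * iP a b c * iH d e f * iT d e f
      + (10 / 3) * iT a b c * iP a b c * iH d e f ^ 2
      + (2 / 9) * iT a b c * iP a b c * iH d e f ^ 2 * iT d e f
      + (2 / 3) * iT a b c * iP a b c * iH d e f ^ 3
      + (11 / 3) * iT a b c ^ 2 * iP d e f
      + (1 / 3) * iT a b c ^ 2 * iT d e f
      + (23 / 144) * iT a b c ^ 2 * iT d e f ^ 2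
      + (29 / 12) * iT a b c ^ 2 * iH d e f * iP d e f
      + (5 / 3) * iT a b c ^ 2 * iH d e f * iT d e f
      + (1 / 3) * iT a b c ^ 2 * iH d e f ^ 2
      + (4 / 9) * iT a b c ^ 2 * iH d e f ^ 2 * iT d e f
      + (5 / 6) * iT a b c ^ 2 * iH d e f ^ 3
      + (1 / 3) * iH a b c * iH d e f ^ 2 * iT d e f
      + (8) * iH a b c * iP a b c * iP d e f
      + (2) * iH a b c * iP a b c * iT d e f
      + (14 / 3) * iH a b c * iP a b c * iT d e f * iP d e f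
      + (29 / 12) * iH a b c * iP a b c * iT d e f ^ 2
      + (27) * iH a b c * iP a b c * iH d e f * iP d e f
      + (20) * iH a b c * iP a b c * iH d e f * iT d e f
      + (8) * iH a b c * iP a b c * iH d e f ^ 2
      + (8 / 3) * iH a b c * iP a b c * iH d e f ^ 2 * iT d e f
      + (2) * iH a b c * iP a b c * iH d e f ^ 3
      + (14 / 3) * iH a b c * iT a b c * iP d e f
      + (20 / 9) * iH a b c * iT a b c * iT d e f * iP d e f
      + (5 / 3) * iH a b c * iT a b c * iT d e f ^ 2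
      + (20) * iH a b c * iT a b c * iH d e f * iP d e f
      + (22 / 3) * iH a b c * iT a b c * iH d e f * iT d e f
      + (1) * iH a b c * iT a b c * iH d e f ^ 2
      + (23 / 9) * iH a b c * iT a b c * iH d e f ^ 2 * iT d e f
      + (1) * iH a b c * iT a b c * iH d e f ^ 3
      + (10 / 3) * iH a b c ^ 2 * iT d e f * iP d e f
      + (1 / 3) * iH a b c ^ 2 * iT d e f ^ 2
      + (8) * iH a b c ^ 2 * iH d e f * iP d e f
      + (1) * iH a b c ^ 2 * iH d e f * iT d e f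
      + (1 / 3) * iH a b c ^ 2 * iH d e f ^ 2 * iT d e f
      + (16 / 3) * iH a b c ^ 2 * iT a b c * iP d e f
      + (2 / 3) * iH a b c ^ 2 * iT a b c * iT d e f
      + (2 / 9) * iH a b c ^ 2 * iT a b c * iT d e f * iP d e f
      + (4 / 9) * iH a b c ^ 2 * iT a b c * iT d e f ^ 2
      + (1 / 3) * iH a b c ^ 2 * iT a b c * iH d e f
      + (8 / 3) * iH a b c ^ 2 * iT a b c * iH d e f * iP d e f
      + (23 / 9) * iH a b c ^ 2 * iT a b c * iH d e f * iT d e f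
      + (1 / 3) * iH a b c ^ 2 * iT a b c * iH d e f ^ 2
      + (2 / 9) * iH a b c ^ 2 * iT a b c * iH d e f ^ 2 * iT d e f
      + (4) * iH a b c ^ 3 * iP d e f
      + (2 / 3) * iH a b c ^ 3 * iT d e f * iP d e f
      + (5 / 6) * iH a b c ^ 3 * iT d e f ^ 2
      + (2) * iH a b c ^ 3 * iH d e f * iP d e f
      + (1) * iH a b c ^ 3 * iH d e f * iT d e f) := by
  have h := PE.sound 25 8
    (mul (cst 6) (p24 (fun d e f => mul (mul (qN v0 v1 v2 d e f) (qT v0 v1 v2 d e f)) (pow (pS v0 v1 v2 d e f) 2)) v3 v4 v5))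
    (add (add (add (add (add (tm (288) 0 0 1 0 1 1) (add (tm (528) 0 0 1 0 2 0) (tm (1152) 0 0 1 1 0 1))) (add (add (tm (672) 0 0 1 1 1 0) (tm (768) 0 0 1 2 1 0)) (add (tm (576) 0 0 1 3 0 0) (tm (192) 0 1 0 0 1 1)))) (add (add (add (tm (48) 0 1 0 0 2 0) (tm (288) 0 1 0 1 0 1)) (add (tm (96) 0 1 0 2 1 0) (tm (288) 0 1 1 0 0 1))) (add (add (tm (192) 0 1 1 0 1 0) (tm (96) 0 1 1 0 1 1)) (add (tm (672) 0 1 1 1 0 1) (tm (320) 0 1 1 1 1 0))))) (add (add (add (add (tm (480) 0 1 1 2 0 0) (tm (32) 0 1 1 2 1 0)) (add (tm (96) 0 1 1 3 0 0) (tm (528) 0 2 0 0 0 1))) (add (add (tm (48) 0 2 0 0 1 0) (tm (23) 0 2 0 0 2 0)) (add (tm (348) 0 2 0 1 0 1) (tm (240) 0 2 0 1 1 0)))) (add (add (add (tm (48) 0 2 0 2 0 0) (tm (64) 0 2 0 2 1 0)) (add (tm (120) 0 2 0 3 0 0) (tm (48) 1 0 0 2 1 0))) (add (add (tm (1152) 1 0 1 0 0 1) (tm (288) 1 0 1 0 1 0)) (add (tm (672) 1 0 1 0 1 1) (tm (348) 1 0 1 0 2 0)))))) (add (add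 (add (add (add (tm (3888) 1 0 1 1 0 1) (tm (2880) 1 0 1 1 1 0)) (add (tm (1152) 1 0 1 2 0 0) (tm (384) 1 0 1 2 1 0))) (add (add (tm (288) 1 0 1 3 0 0) (tm (672) 1 1 0 0 0 1)) (add (tm (320) 1 1 0 0 1 1) (tm (240) 1 1 0 0 2 0)))) (add (add (add (tm (2880) 1 1 0 1 0 1) (tm (1056) 1 1 0 1 1 0)) (add (tm (144) 1 1 0 2 0 0) (tm (368) 1 1 0 2 1 0))) (add (add (tm (144) 1 1 0 3 0 0) (tm (480) 2 0 0 0 1 1)) (add (tm (48) 2 0 0 0 2 0) (tm (1152) 2 0 0 1 0 1))))) (add (add (add (add (tm (144) 2 0 0 1 1 0) (tm (48) 2 0 0 2 1 0)) (add (tm (768) 2 1 0 0 0 1) (tm (96) 2 1 0 0 1 0))) (add (add (tm (32) 2 1 0 0 1 1) (tm (64) 2 1 0 0 2 0)) (add (tm (48) 2 1 0 1 0 0) (tm (384) 2 1 0 1 0 1)))) (add (add (add (tm (368) 2 1 0 1 1 0) (tm (48) 2 1 0 2 0 0)) (add (tm (32) 2 1 0 2 1 0) (tm (576) 3 0 0 0 0 1))) (add (add (tm (96) 3 0 0 0 1 1) (tm (120) 3 0 0 0 2 0)) (add (tm (288) 3 0 0 1 0 1) (tm (144) 3 0 0 1 1 0)))))))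
    (by decide +kernel) ![a, b, c, d, e, f]
  simp only [p24, p4, PE.ev_add, ev_mul, ev_neg, ev_pow, ev_cst, ev_pS, ev_qN, ev_qT, ev_qP, ev_tm, ev_v0, ev_v1, ev_v2,
    ev_v3, ev_v4, ev_v5] at h
  simp only [s24, s4]
  push_cast at h
  linear_combination (1 / 6) * h

open PE in
theorem m4NT3 (a b c d e f : ℝ) : s24 (fun d e f => kN a b c d e f * kT a b c d e f * kS a b c d e f ^ 3) d e f =
    24 * ((20 / 3) * iP a b c * iT d e f * iP d e f
      + (31 / 18) * iP a b c * iH d e f * iT d e f ^ 2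
      + (2) * iP a b c * iH d e f ^ 2 * iP d e f
      + (-4) * iP a b c ^ 2 * iP d e f ^ 2
      + (16 / 3) * iP a b c ^ 2 * iT d e f * iP d e f
      + (-1 / 6) * iP a b c ^ 2 * iT d e f ^ 2
      + (-6) * iP a b c ^ 2 * iH d e f * iP d e f
      + (16 / 3) * iP a b c ^ 2 * iH d e f * iT d e f
      + (5 / 18) * iP a b c ^ 2 * iH d e f * iT d e f ^ 2
      + (2) * iP a b c ^ 2 * iH d e f ^ 2 * iP d e f
      + (4) * iP a b c ^ 2 * iH d e f ^ 3
      + (1 / 6) * iT a b c * iH d e f * iT d e f ^ 2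
      + (20 / 3) * iT a b c * iP a b c * iP d e f
      + (16 / 3) * iT a b c * iP a b c * iP d e f ^ 2
      + (-2 / 9) * iT a b c * iP a b c * iT d e f * iP d e f
      + (7 / 3) * iT a b c * iP a b c * iT d e f ^ 2
      + (10) * iT a b c * iP a b c * iH d e f * iP d e f
      + (52 / 9) * iT a b c * iP a b c * iH d e f * iT d e f
      + (5 / 9) * iT a b c * iP a b c * iH d e f * iT d e f ^ 2
      + (-4 / 3) * iT a b c * iP a b c * iH d e f ^ 2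
      + (2 / 3) * iT a b c * iP a b c * iH d e f ^ 2 * iP d e f
      + (6) * iT a b c * iP a b c * iH d e f ^ 2 * iT d e f
      + (2) * iT a b c * iP a b c * iH d e f ^ 3
      + (2 / 3) * iT a b c * iP a b c * iH d e f ^ 4
      + (-1 / 6) * iT a b c ^ 2 * iP d e f ^ 2
      + (7 / 3) * iT a b c ^ 2 * iT d e f * iP d e f
      + (13 / 24) * iT a b c ^ 2 * iT d e f ^ 2
      + (5) * iT a b c ^ 2 * iH d e f * iP d e f
      + (11 / 18) * iT a b c ^ 2 * iH d e f * iT d e f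
      + (41 / 216) * iT a b c ^ 2 * iH d e f * iT d e f ^ 2
      + (2) * iT a b c ^ 2 * iH d e f ^ 2 * iP d e f
      + (7 / 6) * iT a b c ^ 2 * iH d e f ^ 2 * iT d e f
      + (-1 / 2) * iT a b c ^ 2 * iH d e f ^ 3
      + (-6) * iH a b c * iP a b c * iP d e f ^ 2
      + (10) * iH a b c * iP a b c * iT d e f * iP d e f
      + (5) * iH a b c * iP a b c * iT d e f ^ 2
      + (18) * iH a b c * iP a b c * iH d e f * iP d e f
      + (4) * iH a b c * iP a b c * iH d e f * iT d e f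
      + (7 / 2) * iH a b c * iP a b c * iH d e f * iT d e f ^ 2
      + (12) * iH a b c * iP a b c * iH d e f ^ 2 * iP d e f
      + (14) * iH a b c * iP a b c * iH d e f ^ 2 * iT d e f
      + (6) * iH a b c * iP a b c * iH d e f ^ 3
      + (16 / 3) * iH a b c * iT a b c * iP d e f ^ 2
      + (52 / 9) * iH a b c * iT a b c * iT d e f * iP d e f
      + (11 / 18) * iH a b c * iT a b c * iT d e f ^ 2
      + (4) * iH a b c * iT a b c * iH d e f * iP d e f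
      + (10 / 9) * iH a b c * iT a b c * iH d e f * iT d e f ^ 2
      + (8 / 3) * iH a b c * iT a b c * iH d e f ^ 2 * iP d e f
      + (3) * iH a b c * iT a b c * iH d e f ^ 2 * iT d e f
      + (1 / 3) * iH a b c * iT a b c * iH d e f ^ 3
      + (1 / 3) * iH a b c * iT a b c * iH d e f ^ 4
      + (31 / 18) * iH a b c * iT a b c ^ 2 * iP d e f
      + (5 / 18) * iH a b c * iT a b c ^ 2 * iP d e f ^ 2
      + (1 / 6) * iH a b c * iT a b c ^ 2 * iT d e f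
      + (5 / 9) * iH a b c * iT a b c ^ 2 * iT d e f * iP d e f
      + (41 / 216) * iH a b c * iT a b c ^ 2 * iT d e f ^ 2
      + (7 / 2) * iH a b c * iT a b c ^ 2 * iH d e f * iP d e f
      + (10 / 9) * iH a b c * iT a b c ^ 2 * iH d e f * iT d e f
      + (1 / 27) * iH a b c * iT a b c ^ 2 * iH d e f * iT d e f ^ 2
      + (1 / 18) * iH a b c * iT a b c ^ 2 * iH d e f ^ 2
      + (7 / 18) * iH a b c * iT a b c ^ 2 * iH d e f ^ 2 * iP d e f
      + (11 / 18) * iH a b c * iT a b c ^ 2 * iH d e f ^ 2 * iT d e f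
      + (1 / 9) * iH a b c * iT a b c ^ 2 * iH d e f ^ 3
      + (-4 / 3) * iH a b c ^ 2 * iT d e f * iP d e f
      + (1 / 18) * iH a b c ^ 2 * iH d e f * iT d e f ^ 2
      + (2) * iH a b c ^ 2 * iH d e f ^ 2 * iP d e f
      + (1) * iH a b c ^ 2 * iH d e f ^ 2 * iT d e f
      + (2) * iH a b c ^ 2 * iP a b c * iP d e f
      + (2) * iH a b c ^ 2 * iP a b c * iP d e f ^ 2
      + (2 / 3) * iH a b c ^ 2 * iP a b c * iT d e f * iP d e f
      + (2) * iH a b c ^ 2 * iP a b c * iT d e f ^ 2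
      + (12) * iH a b c ^ 2 * iP a b c * iH d e f * iP d e f
      + (8 / 3) * iH a b c ^ 2 * iP a b c * iH d e f * iT d e f
      + (7 / 18) * iH a b c ^ 2 * iP a b c * iH d e f * iT d e f ^ 2
      + (2) * iH a b c ^ 2 * iP a b c * iH d e f ^ 2
      + (2) * iH a b c ^ 2 * iP a b c * iH d e f ^ 2 * iT d e f
      + (6) * iH a b c ^ 2 * iT a b c * iT d e f * iP d e f
      + (7 / 6) * iH a b c ^ 2 * iT a b c * iT d e f ^ 2
      + (14) * iH a b c ^ 2 * iT a b c * iH d e f * iP d e f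
      + (3) * iH a b c ^ 2 * iT a b c * iH d e f * iT d e f
      + (11 / 18) * iH a b c ^ 2 * iT a b c * iH d e f * iT d e f ^ 2
      + (1) * iH a b c ^ 2 * iT a b c * iH d e f ^ 2
      + (2) * iH a b c ^ 2 * iT a b c * iH d e f ^ 2 * iP d e f
      + (8 / 3) * iH a b c ^ 2 * iT a b c * iH d e f ^ 2 * iT d e f
      + (1) * iH a b c ^ 2 * iT a b c * iH d e f ^ 3
      + (4) * iH a b c ^ 3 * iP d e f ^ 2
      + (2) * iH a b c ^ 3 * iT d e f * iP d e f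
      + (-1 / 2) * iH a b c ^ 3 * iT d e f ^ 2
      + (6) * iH a b c ^ 3 * iH d e f * iP d e f
      + (1 / 3) * iH a b c ^ 3 * iH d e f * iT d e f
      + (1 / 9) * iH a b c ^ 3 * iH d e f * iT d e f ^ 2
      + (1) * iH a b c ^ 3 * iH d e f ^ 2 * iT d e f
      + (2 / 3) * iH a b c ^ 4 * iT d e f * iP d e f
      + (1 / 3) * iH a b c ^ 4 * iH d e f * iT d e f) := by
  have h := PE.sound 28 9
    (mul (cst 9) (p24 (fun d e f => mul (mul (qN v0 v1 v2 d e f) (qT v0 v1 v2 d e f)) (pow (pS v0 v1 v2 d e f) 3)) v3 v4 v5))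
    (add (add (add (add (add (add (tm (1440) 0 0 1 0 1 1) (tm (372) 0 0 1 1 2 0)) (add (tm (432) 0 0 1 2 0 1) (add (tm (-864) 0 0 2 0 0 2) (tm (1152) 0 0 2 0 1 1)))) (add (add (tm (-36) 0 0 2 0 2 0) (add (tm (-1296) 0 0 2 1 0 1) (tm (1152) 0 0 2 1 1 0))) (add (tm (60) 0 0 2 1 2 0) (add (tm (432) 0 0 2 2 0 1) (tm (864) 0 0 2 3 0 0))))) (add (add (add (tm (36) 0 1 0 1 2 0) (add (tm (1440) 0 1 1 0 0 1) (tm (1152) 0 1 1 0 0 2))) (add (tm (-48) 0 1 1 0 1 1) (add (tm (504) 0 1 1 0 2 0) (tm (2160) 0 1 1 1 0 1)))) (add (add (tm (1248) 0 1 1 1 1 0) (add (tm (120) 0 1 1 1 2 0) (tm (-288) 0 1 1 2 0 0))) (add (tm (144) 0 1 1 2 0 1) (add (tm (1296) 0 1 1 2 1 0) (tm (432) 0 1 1 3 0 0)))))) (add (add (add (add (tm (144) 0 1 1 4 0 0) (add (tm (-36) 0 2 0 0 0 2) (tm (504) 0 2 0 0 1 1))) (add (tm (117) 0 2 0 0 2 0) (add (tm (1080) 0 2 0 1 0 1) (tm (132) 0 2 0 1 1 0)))) (add (add (tm (41) 0 2 0 1 2 0) (add (tm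 (432) 0 2 0 2 0 1) (tm (252) 0 2 0 2 1 0))) (add (tm (-108) 0 2 0 3 0 0) (add (tm (-1296) 1 0 1 0 0 2) (tm (2160) 1 0 1 0 1 1))))) (add (add (add (tm (1080) 1 0 1 0 2 0) (add (tm (3888) 1 0 1 1 0 1) (tm (864) 1 0 1 1 1 0))) (add (tm (756) 1 0 1 1 2 0) (add (tm (2592) 1 0 1 2 0 1) (tm (3024) 1 0 1 2 1 0)))) (add (add (tm (1296) 1 0 1 3 0 0) (add (tm (1152) 1 1 0 0 0 2) (tm (1248) 1 1 0 0 1 1))) (add (tm (132) 1 1 0 0 2 0) (add (tm (864) 1 1 0 1 0 1) (tm (240) 1 1 0 1 2 0))))))) (add (add (add (add (add (tm (576) 1 1 0 2 0 1) (tm (648) 1 1 0 2 1 0)) (add (tm (72) 1 1 0 3 0 0) (add (tm (72) 1 1 0 4 0 0) (tm (372) 1 2 0 0 0 1)))) (add (add (tm (60) 1 2 0 0 0 2) (add (tm (36) 1 2 0 0 1 0) (tm (120) 1 2 0 0 1 1))) (add (tm (41) 1 2 0 0 2 0) (add (tm (756) 1 2 0 1 0 1) (tm (240) 1 2 0 1 1 0))))) (add (add (add (tm (8) 1 2 0 1 2 0) (add (tm (12) 1 2 0 2 0 0) (tm (84) 1 2 0 2 0 1))) (add (tm (132)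 1 2 0 2 1 0) (add (tm (24) 1 2 0 3 0 0) (tm (-288) 2 0 0 0 1 1)))) (add (add (tm (12) 2 0 0 1 2 0) (add (tm (432) 2 0 0 2 0 1) (tm (216) 2 0 0 2 1 0))) (add (tm (432) 2 0 1 0 0 1) (add (tm (432) 2 0 1 0 0 2) (tm (144) 2 0 1 0 1 1)))))) (add (add (add (add (tm (432) 2 0 1 0 2 0) (add (tm (2592) 2 0 1 1 0 1) (tm (576) 2 0 1 1 1 0))) (add (tm (84) 2 0 1 1 2 0) (add (tm (432) 2 0 1 2 0 0) (tm (432) 2 0 1 2 1 0)))) (add (add (tm (1296) 2 1 0 0 1 1) (add (tm (252) 2 1 0 0 2 0) (tm (3024) 2 1 0 1 0 1))) (add (tm (648) 2 1 0 1 1 0) (add (tm (132) 2 1 0 1 2 0) (tm (216) 2 1 0 2 0 0))))) (add (add (add (tm (432) 2 1 0 2 0 1) (add (tm (576) 2 1 0 2 1 0) (tm (216) 2 1 0 3 0 0))) (add (tm (864) 3 0 0 0 0 2) (add (tm (432) 3 0 0 0 1 1) (tm (-108) 3 0 0 0 2 0)))) (add (add (tm (1296) 3 0 0 1 0 1) (add (tm (72) 3 0 0 1 1 0) (tm (24) 3 0 0 1 2 0))) (add (tm (216) 3 0 0 2 1 0) (add (tm (144) 4 0 0 0 1 1) (tm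 (72) 4 0 0 1 1 0))))))))
    (by decide +kernel) ![a, b, c, d, e, f]
  simp only [p24, p4, PE.ev_add, ev_mul, ev_neg, ev_pow, ev_cst, ev_pS, ev_qN, ev_qT, ev_qP, ev_tm, ev_v0, ev_v1, ev_v2,
    ev_v3, ev_v4, ev_v5] at h
  simp only [s24, s4]
  push_cast at h
  linear_combination (1 / 9) * h

end Crest.Agent.R163
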