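import Crest.Agent.R163.Box

/-! R163: a run of the verified density evolution (generated). -/

set_option autoImplicit false
set_option Elab.async false

namespace Crest.Agent.R163.RunR29

noncomputable section

def w : List ℕ := [0, 0, 0, 0, 0, 0, 0, 0, 0, 0, 0, 0, 0, 0, 0, 0, 0, 0, 0, 0, 0, 0, 0, 0, 0, 0, 0, 0, 0, 1099511627776]

theorem hw : Eng.Below w (Off.reg 29) :=
  (by decide +kernel : Eng.regL 29 = w) ▸ Eng.below_reg 29

def s1 : ℕ := 0x5851663d100000000000000016fc2c98f000000000000000000000000000000000000000000000000000000000000000e95eae41100000000000000060c50dd4900000000000000000fd067d100000000000000073f0ee09a00000000000000056156fc7c0000000000000001791f4962000000000000000000000000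

theorem e1 : Eng.iter ⟨13, 12, 13, 12, 1925, 10000, 44, 3, 3, 2, w⟩ 4 0 = s1 := by
  decide +kernel

theorem l1 : Lv 13 12 3 1925 10000 (Off.reg 29) s1 := (Lv.zero 13 12 3 1925 10000 (Off.reg 29)).iter hw 4 (by decide +kernel) e1

def s2 : ℕ := 0x2ec0017d40000000000000000fe884185000000000000000000000000000000000000000000000000000000000000000ce2bbec8400000000000000062c6f6a7100000000000000000c5dd5800000000000000009dae032910000000000000006a7bad3c8000000000000000264404f9b000000000000000000000000

theorem e2 : Eng.iter ⟨13, 12, 13, 12, 1925, 10000, 44, 3, 3, 0, w⟩ 3 s1 = s2 := by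
  decide +kernel

theorem l2 : Lv 13 12 3 1925 10000 (Off.reg 29) s2 := l1.iter hw 3 (by decide +kernel) e2

def s3 : ℕ := 0x242fc2b200000000000000001034677300000000000000000000000000000000000000000000000000000000000000000000000000000000000000000000000000000000000000000000000000000000000000041025252d00000000000000018d646baa0000000000000000000000000000000000000000000000000000000000000000000000000000000000000000000000000000000000000005d71e059b00000000000000040f312b27000000000000000027a367dd0000000000000000000000000000000000000000000000000000000000000003e0d0300700000000000000059c8c53de0000000000000001f17751b1000000000000000011aa0611000000000000000287b75b9e0000000000000005071cac7e00000000000000025ac2efc70000000000000001f96ab4530000000000000002140304b30000000000000000a846cd31000000000000000000000000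

theorem e3 : Eng.step ⟨13, 12, 25, 24, 1925, 10000, 44, 3, 6, 0, w⟩ s2 = s3 := by
  decide +kernel

theorem l3 : Lv 25 24 6 1925 10000 (Off.reg 29) s3 := l2.step hw (by decide +kernel) e3

def s4 : ℕ := 0x5c7165d0000000000000000025a85cf000000000000000000000000000000000000000000000000000000000000000000000000000000000000000000000000000000000000000000000000000000000000000184bb62d30000000000000000c62d0d2200000000000000000000000000000000000000000000000000000000000000000000000000000000000000000000000000000000000000045ef9886500000000000000033115849100000000000000001938896100000000000000000000000000000000000000000000000000000000000000047910b4af0000000000000005ddbe1ffe0000000000000001988e3054000000000000000006383b310000000000000003a6edd5ce0000000000000006c56336b200000000000000026be40938000000000000000326922ea0000000000000000334a3978100000000000000010487f12a000000000000000000000000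

theorem e4 : Eng.iter ⟨25, 24, 25, 24, 1925, 10000, 50, 6, 6, 0, w⟩ 5 s3 = s4 := by
  decide +kernel

theorem l4 : Lv 25 24 6 1925 10000 (Off.reg 29) s4 := l3.iter hw 5 (by decide +kernel) e4

theorem reach : Reach (((1925 : ℕ) : ℝ) / (10000 : ℕ)) (Off.reg 29) (((603 : ℕ) : ℝ) / (1000 : ℕ)) :=
  l4.reach 603 1000 (by norm_num) (by norm_num) (by norm_num) (by norm_num) (by norm_num) (by decide +kernel)

theorem nr {b : ℕ} {η : ℝ} (h1 : 27 ≤ b) (h2 : b ≤ 29) (h0 : 0 ≤ η) (hc : b * η ^ 2 ≤ 1) :
    NR (-η) (Off.reg b) :=
  box_reg (η1 := 116 / 625) (α := 79 / 1000) (m := 1 / 10000) (s := 3701 / 10000) (κ := 983 / 10000) (l := 24 / 25)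
    27 29 (by norm_num) (by constructor <;> norm_num) (by norm_num) (by norm_num) (by norm_num) reach h1 h2 h0 hc

end

end Crest.Agent.R163.RunR29
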